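import Vale.Agent.P216.Geodesic

/-!
# The shortest chord between two parts of the fixed set of an isometric involution
-/

namespace Vale.Agent.P216

open Filter Topology Set Function Finset

variable {M : Type*} [MetricSpace M]

/-- The energy of the first `k` steps of a chain. -/
noncomputable def energy (k : ℕ) (x : ℕ → M) : ℝ :=
  ∑ i ∈ Finset.range k, dist (x i) (x (i + 1)) ^ 2

theorem energy_update_mid {k : ℕ} (x : ℕ → M) (i : ℕ) (hi : i + 1 < k) (m : M) :
    energy k (update x (i + 1) m) = energy k x - dist (x i) (x (i + 1)) ^ 2 -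
      dist (x (i + 1)) (x (i + 2)) ^ 2 + dist (x i) m ^ 2 + dist m (x (i + 2)) ^ 2 := by
  have hmem : i + 1 ∈ (Finset.range k).erase i := by simp [hi]
  have hmem0 : i ∈ Finset.range k := by simp only [Finset.mem_range]; omega
  simp only [energy]
  rw [← Finset.add_sum_erase _ _ hmem0, ← Finset.add_sum_erase _ _ hmem,
    ← Finset.add_sum_erase (Finset.range k) (fun i => dist (x i) (x (i + 1)) ^ 2) hmem0,
    ← Finset.add_sum_erase _ (fun i => dist (x i) (x (i + 1)) ^ 2) hmem]
  have e : ∑ j ∈ ((Finset.range k).erase i).erase (i + 1),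
      dist (update x (i + 1) m j) (update x (i + 1) m (j + 1)) ^ 2 =
      ∑ j ∈ ((Finset.range k).erase i).erase (i + 1), dist (x j) (x (j + 1)) ^ 2 := by
    refine Finset.sum_congr rfl fun j hj => ?_
    simp only [Finset.mem_erase] at hj
    rw [update_of_ne hj.1, update_of_ne (fun h => hj.2.1 (by omega))]
  rw [e, update_of_ne (by omega), update_self, update_of_ne (by omega)]
  ring

theorem energy_update_zero {k : ℕ} (hk : 0 < k) (x : ℕ → M) (m : M) :
    energy k (update x 0 m) = energy k x - dist (x 0) (x 1) ^ 2 + dist m (x 1) ^ 2 := by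
  obtain ⟨k, rfl⟩ := Nat.exists_eq_add_one.2 hk
  simp only [energy, Finset.sum_range_succ']
  simp

theorem energy_update_last {k : ℕ} (x : ℕ → M) (m : M) :
    energy (k + 1) (update x (k + 1) m) =
      energy (k + 1) x - dist (x k) (x (k + 1)) ^ 2 + dist (x k) m ^ 2 := by
  simp only [energy, Finset.sum_range_succ]
  have e : ∑ j ∈ Finset.range k, dist (update x (k + 1) m j) (update x (k + 1) m (j + 1)) ^ 2 =
      ∑ j ∈ Finset.range k, dist (x j) (x (j + 1)) ^ 2 := by
    refine Finset.sum_congr rfl fun j hj => ?_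
    rw [Finset.mem_range] at hj
    rw [update_of_ne (by omega), update_of_ne (by omega)]
  rw [e, update_of_ne (by omega), update_self]
  ring

variable [CompactSpace M] {r : ℝ}

omit [CompactSpace M] in
/-- A path from `a` to `b` gives a chain of small energy. -/
theorem exists_chain_of_reach {a b : M} {ℓ : ℝ} (h : Reach a b ℓ) {k : ℕ} (hk : 0 < k) :
    ∃ y : ℕ → M, y 0 = a ∧ y k = b ∧ energy k y ≤ ℓ ^ 2 / k := by
  obtain ⟨hℓ, f, hf, hf0, hf1⟩ := h
  have hk' : (0 : ℝ) < k := by exact_mod_cast hk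
  refine ⟨fun i => f (i * (ℓ / k)), by simpa using hf0,
    by simpa [mul_div_cancel₀ _ hk'.ne'] using hf1, ?_⟩
  calc energy k _ ≤ ∑ _i ∈ Finset.range k, (ℓ / k) ^ 2 := by
        refine Finset.sum_le_sum fun i _ => pow_le_pow_left₀ dist_nonneg ?_ 2
        refine (hf.dist_le_mul _ _).trans (le_of_eq ?_)
        rw [NNReal.coe_one, one_mul, Real.dist_eq, ← sub_mul]
        push_cast
        rw [show (i : ℝ) - (i + 1) = -1 by ring, neg_one_mul, abs_neg,
          abs_of_nonneg (by positivity)]
    _ = ℓ ^ 2 / k := by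
        rw [Finset.sum_const, Finset.card_range, nsmul_eq_mul]
        field_simp
/-- The data of a shortest chord from `A` to `B`, cut into `k` steps of length `δ`. -/
structure IsChord (g : M → M) (A B : Set M) (r δ : ℝ) (k : ℕ) (x : ℕ → M) : Prop where
  two_le : 2 ≤ k
  pos : 0 < δ
  lt : 4 * δ < r
  left_mem : x 0 ∈ A
  right_mem : x k ∈ B
  step : ∀ i < k, dist (x i) (x (i + 1)) = δ
  step_two : ∀ i, i + 1 < k → dist (x i) (x (i + 2)) = 2 * δ
  end_left : dist (x 1) (g (x 1)) = 2 * δ
  end_right : dist (x (k - 1)) (g (x (k - 1))) = 2 * δ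

/-- Every path from `A` to `B` is at least as long as `k` steps of length `δ`. -/
def IsShortest (A B : Set M) (δ : ℝ) (k : ℕ) : Prop :=
  ∀ a ∈ A, ∀ b ∈ B, ∀ ℓ, Reach a b ℓ → k * δ ≤ ℓ

theorem exists_chord (hM : UniqueMid M r) (hr : 0 < r) {g : M → M}
    (hg : Isometry g) (hgg : ∀ x, g (g x) = x) {A B : Set M} (hA : IsClosed A) (hB : IsClosed B)
    (hAB : Disjoint A B) (hfix : ∀ x, g x = x ↔ x ∈ A ∪ B) {a₀ b₀ : M} (ha₀ : a₀ ∈ A)
    (hb₀ : b₀ ∈ B) (hconn : b₀ ∈ connectedComponent a₀) :
    ∃ δ k x, IsChord g A B r δ k x ∧ IsShortest A B δ k := by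
  obtain ⟨ρ, hρ, hsep⟩ := Metric.exists_pos_forall_lt_edist hA.isCompact hB hAB
  obtain ⟨L₀, hL₀⟩ := exists_reach hM hr hconn
  set η := min r (ρ : ℝ) with hη
  have hη0 : 0 < η := lt_min hr hρ
  -- the number of steps
  obtain ⟨k, hk2, hkL⟩ : ∃ k : ℕ, 2 ≤ k ∧ L₀ ^ 2 / k < (η / 4) ^ 2 := by
    obtain ⟨k, hk⟩ := exists_nat_gt (L₀ ^ 2 / (η / 4) ^ 2)
    refine ⟨k + 2, by omega, ?_⟩
    rw [div_lt_iff₀ (by positivity)]
    rw [div_lt_iff₀ (by positivity)] at hk
    push_cast
    nlinarith [sq_nonneg (η / 4)]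
  obtain ⟨y, hy0, hyk, hyE⟩ := exists_chain_of_reach hL₀ (show 0 < k by omega)
  -- the minimiser
  set S : Set (ℕ → M) := {x | x 0 ∈ A ∧ x k ∈ B}
  have hScl : IsClosed S :=
    (hA.preimage (continuous_apply 0)).inter (hB.preimage (continuous_apply k))
  obtain ⟨x, hxS, hmin⟩ := hScl.isCompact.exists_isMinOn ⟨y, hy0 ▸ ha₀, hyk ▸ hb₀⟩
    (show Continuous (energy (M := M) k) from continuous_finsetSum _ fun i _ =>
      ((continuous_apply i).dist (continuous_apply (i + 1))).pow 2).continuousOn
  have hmin' : ∀ x' ∈ S, energy k x ≤ energy k x' := isMinOn_iff.1 hmin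
  have hE : energy k x < (η / 4) ^ 2 :=
    (hmin' y ⟨hy0 ▸ ha₀, hyk ▸ hb₀⟩).trans_lt (hyE.trans_lt hkL)
  have hsmall : ∀ i < k, dist (x i) (x (i + 1)) < η / 4 := by
    intro i hi
    refine lt_of_pow_lt_pow_left₀ 2 (by positivity) (lt_of_le_of_lt ?_ hE)
    exact Finset.single_le_sum (f := fun i => dist (x i) (x (i + 1)) ^ 2)
      (fun j _ => sq_nonneg _) (Finset.mem_range.2 hi)
  have hηr : η ≤ r := min_le_left _ _
  -- interior steps
  have hint : ∀ i, i + 1 < k → dist (x (i + 1)) (x (i + 2)) = dist (x i) (x (i + 1)) ∧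
      dist (x i) (x (i + 2)) = 2 * dist (x i) (x (i + 1)) := by
    intro i hi
    have h1 := hsmall i (by omega)
    have h2 : dist (x (i + 1)) (x (i + 2)) < η / 4 := hsmall (i + 1) hi
    have hD := dist_triangle (x i) (x (i + 1)) (x (i + 2))
    obtain ⟨m1, m2⟩ := isMid_mid hM (show dist (x i) (x (i + 2)) < r by linarith)
    have h := hmin' (update x (i + 1) (mid (x i) (x (i + 2))))
      ⟨by rw [update_of_ne (by omega)]; exact hxS.1, by rw [update_of_ne (by omega)]; exact hxS.2⟩
    rw [energy_update_mid x i hi, m1, m2] at h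
    set a := dist (x i) (x (i + 1))
    set b := dist (x (i + 1)) (x (i + 2))
    set D := dist (x i) (x (i + 2))
    have ha : 0 ≤ a := dist_nonneg
    have hb : 0 ≤ b := dist_nonneg
    have hD0 : 0 ≤ D := dist_nonneg
    have hsq : D ^ 2 ≤ (a + b) ^ 2 := pow_le_pow_left₀ hD0 hD 2
    have hab : b = a := by nlinarith [sq_nonneg (a - b)]
    exact ⟨hab, by nlinarith [sq_nonneg (a - b)]⟩
  set δ := dist (x 0) (x 1) with hδ_def
  have hstep : ∀ i < k, dist (x i) (x (i + 1)) = δ := by
    intro i hi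
    induction i with
    | zero => rfl
    | succ i ih => rw [(hint i hi).1, ih (by omega)]
  have hδη : δ < η / 4 := hsmall 0 (by omega)
  have hδ : 0 < δ := by
    refine lt_of_le_of_ne dist_nonneg fun h0 => ?_
    have hc : ∀ i ≤ k, x i = x 0 := by
      intro i hi
      induction i with
      | zero => rfl
      | succ i ih =>
        rw [← ih (by omega)]
        exact (dist_eq_zero.1 ((hstep i (by omega)).trans h0.symm)).symm
    exact hAB.ne_of_mem hxS.1 hxS.2 (hc k le_rfl).symm
  -- every path from `A` to `B` is at least as long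
  have hlong : ∀ a ∈ A, ∀ b ∈ B, ∀ ℓ, Reach a b ℓ → k * δ ≤ ℓ := by
    intro a ha b hb ℓ hℓ
    obtain ⟨w, hw0, hwk, hwE⟩ := exists_chain_of_reach hℓ (show 0 < k by omega)
    have h := (hmin' w ⟨hw0 ▸ ha, hwk ▸ hb⟩).trans hwE
    have e : energy k x = k * δ ^ 2 := by
      rw [energy, Finset.sum_congr rfl (g := fun _ => δ ^ 2)
        (fun i hi => by rw [hstep i (Finset.mem_range.1 hi)])]
      simp
    rw [e, le_div_iff₀ (by positivity)] at h
    have e2 : ((k : ℝ) * δ) ^ 2 = (k : ℝ) * δ ^ 2 * k := by ring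
    exact le_of_pow_le_pow_left₀ two_ne_zero hℓ.1 (by linarith)
  -- the two ends
  have hfixA : ∀ a ∈ A, g a = a := fun a ha => (hfix a).2 (Or.inl ha)
  have hfixB : ∀ b ∈ B, g b = b := fun b hb => (hfix b).2 (Or.inr hb)
  have hend : ∀ (P Q : Set M) (p q : M), p ∈ P → g p = p → dist p q = δ →
      (∀ m, g m = m → m ∈ P ∨ m ∈ Q) → (∀ m ∈ Q, dist p m < η → False) →
      (∀ m ∈ P, δ ≤ dist m q) → dist q (g q) = 2 * δ := by
    intro P Q p q hp hgp hpq hPQ hfar hclose
    have h2 : dist q (g q) ≤ 2 * δ := by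
      have e : dist p (g q) = δ := by rw [← hpq, ← hg.dist_eq p q, hgp]
      linarith [dist_triangle q p (g q), dist_comm p q]
    have hlt : dist q (g q) < r := by linarith
    obtain ⟨m1, m2⟩ := isMid_mid hM hlt
    have hm : g (mid q (g q)) = mid q (g q) := by
      rw [map_mid hM hg hlt, hgg]
      refine mid_eq hM (by rwa [dist_comm]) ⟨?_, ?_⟩
      · rw [dist_comm, m2, dist_comm]
      · rw [dist_comm, m1, dist_comm]
    rcases hPQ _ hm with h | h
    · have := hclose _ h
      rw [dist_comm] at this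
      linarith
    · exact (hfar _ h (by linarith [dist_triangle p q (mid q (g q))])).elim
  have hne : ∀ a ∈ A, ∀ b ∈ B, ¬ dist a b < η := by
    intro a ha b hb h
    have h' := hsep a ha b hb
    rw [edist_dist, ← ENNReal.ofReal_coe_nnreal, ENNReal.ofReal_lt_ofReal_iff'] at h'
    linarith [min_le_right r (ρ : ℝ), h'.1]
  have hA' : dist (x 1) (g (x 1)) = 2 * δ := by
    refine hend A B (x 0) (x 1) hxS.1 (hfixA _ hxS.1) rfl (fun m hm => (hfix m).1 hm)
      (fun m hm h => hne _ hxS.1 _ hm h) fun m hm => ?_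
    have h := hmin' (update x 0 m) ⟨by simpa using hm,
      by rw [update_of_ne (by omega)]; exact hxS.2⟩
    rw [energy_update_zero (show 0 < k by omega)] at h
    exact le_of_pow_le_pow_left₀ two_ne_zero dist_nonneg (by linarith)
  have hB' : dist (x (k - 1)) (g (x (k - 1))) = 2 * δ := by
    obtain ⟨j, rfl⟩ : ∃ j, k = j + 1 := ⟨k - 1, by omega⟩
    refine hend B A (x (j + 1)) (x j) hxS.2 (hfixB _ hxS.2)
      (by rw [dist_comm]; exact hstep j (by omega))
      (fun m hm => ((hfix m).1 hm).symm) (fun m hm h => hne _ hm _ hxS.2 (by rwa [dist_comm]))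
      fun m hm => ?_
    have h := hmin' (update x (j + 1) m) ⟨by rw [update_of_ne (by omega)]; exact hxS.1,
      by simpa using hm⟩
    rw [energy_update_last, hstep j (by omega)] at h
    rw [dist_comm]
    exact le_of_pow_le_pow_left₀ two_ne_zero dist_nonneg (by linarith)
  exact ⟨δ, k, x, ⟨hk2, hδ, by linarith, hxS.1, hxS.2, hstep,
    fun i hi => by rw [(hint i hi).2, hstep i (by omega)], hA', hB'⟩, hlong⟩

/-- The chord followed by its mirror image, as a periodic chain. -/
noncomputable def wrap (g : M → M) (x : ℕ → M) (k j : ℕ) : M :=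
  if j ≤ k then x j else if j ≤ 2 * k then g (x (2 * k - j)) else x (j - 2 * k)

/-- The periodic chain of a chord, indexed by integers. -/
noncomputable def loopZ (g : M → M) (x : ℕ → M) (k : ℕ) (i : ℤ) : M :=
  wrap g x k (i % ((2 * k : ℕ) : ℤ)).toNat

variable {g : M → M} {A B : Set M} {δ : ℝ} {k : ℕ} {x : ℕ → M}

omit [MetricSpace M] [CompactSpace M] in
theorem wrap_low {j : ℕ} (hj : j ≤ k) : wrap g x k j = x j := by simp [wrap, hj]

omit [CompactSpace M] in
theorem wrap_high (h : IsChord g A B r δ k x) (hfix : ∀ x, g x = x ↔ x ∈ A ∪ B) {j : ℕ}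
    (hj : k ≤ j) (hj' : j ≤ 2 * k) : wrap g x k j = g (x (2 * k - j)) := by
  rcases eq_or_lt_of_le hj with rfl | hj''
  · simp [wrap, show 2 * k - k = k by omega, (hfix _).2 (Or.inr h.right_mem)]
  · simp [wrap, not_le.2 hj'', hj']

omit [CompactSpace M] in
theorem loopZ_add (h : IsChord g A B r δ k x) (hfix : ∀ x, g x = x ↔ x ∈ A ∪ B) (i : ℤ) :
    ∃ j < 2 * k, ∀ s ≤ 2, loopZ g x k (i + (s : ℕ)) = wrap g x k (j + s) := by
  have := h.two_le
  have hp : (0 : ℤ) < (2 * k : ℕ) := by exact_mod_cast (show 0 < 2 * k by omega)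
  obtain ⟨j, hj⟩ := Int.eq_ofNat_of_zero_le (Int.emod_nonneg i hp.ne')
  have hjk : j < 2 * k := by
    have := Int.emod_lt_of_pos i hp
    omega
  refine ⟨j, hjk, fun s hs => ?_⟩
  have e : (i + (s : ℕ)) % (2 * k : ℕ) = (((j + s) % (2 * k) : ℕ) : ℤ) := by
    rw [← Int.emod_add_emod, hj]
    push_cast
    rfl
  rw [loopZ, e, Int.toNat_natCast]
  rcases lt_or_ge (j + s) (2 * k) with h1 | h1
  · rw [Nat.mod_eq_of_lt h1]
  · rw [Nat.mod_eq_sub_mod h1, Nat.mod_eq_of_lt (by omega)]
    rcases eq_or_lt_of_le h1 with e1 | h2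
    · rw [← e1, Nat.sub_self, wrap_low (by omega), wrap_high h hfix (by omega) le_rfl,
        Nat.sub_self, (hfix _).2 (Or.inl h.left_mem)]
    · simp [wrap, show ¬ j + s ≤ k by omega, show ¬ j + s ≤ 2 * k by omega,
        show j + s - 2 * k ≤ k by omega]

omit [CompactSpace M] in
theorem dist_wrap_one (h : IsChord g A B r δ k x) (hfix : ∀ x, g x = x ↔ x ∈ A ∪ B)
    (hg : Isometry g) {j : ℕ} (hj : j < 2 * k) :
    dist (wrap g x k j) (wrap g x k (j + 1)) = δ := by
  rcases lt_or_ge j k with h1 | h1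
  · rw [wrap_low h1.le, wrap_low h1]
    exact h.step j h1
  · obtain ⟨l, hl, rfl⟩ : ∃ l < k, j = 2 * k - (l + 1) :=
      ⟨2 * k - (j + 1), by omega, by omega⟩
    rw [wrap_high h hfix h1 (by omega), wrap_high h hfix (by omega) (by omega), hg.dist_eq,
      show 2 * k - (2 * k - (l + 1)) = l + 1 by omega,
      show 2 * k - (2 * k - (l + 1) + 1) = l by omega, dist_comm]
    exact h.step l hl

omit [CompactSpace M] in
theorem dist_wrap_two (h : IsChord g A B r δ k x) (hfix : ∀ x, g x = x ↔ x ∈ A ∪ B)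
    (hg : Isometry g) {j : ℕ} (hj : j < 2 * k) :
    dist (wrap g x k j) (wrap g x k (j + 2)) = 2 * δ := by
  have := h.two_le
  rcases lt_trichotomy (j + 1) k with h1 | h1 | h1
  · rw [wrap_low (by omega), wrap_low h1, h.step_two j h1]
  · rw [wrap_low (by omega), wrap_high h hfix (j := j + 2) (by omega) (by omega),
      show 2 * k - (j + 2) = k - 1 by omega, show j = k - 1 by omega]
    exact h.end_right
  · rcases eq_or_lt_of_le (show j + 1 ≤ 2 * k by omega) with h2 | h2
    · have e : wrap g x k (j + 2) = x 1 := by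
        simp [wrap, show ¬ j + 2 ≤ k by omega, show ¬ j + 2 ≤ 2 * k by omega,
          show j + 2 - 2 * k = 1 by omega]
      rw [e, wrap_high h hfix (by omega) (by omega), show 2 * k - j = 1 by omega, dist_comm]
      exact h.end_left
    · obtain ⟨l, hl, rfl⟩ : ∃ l, l + 1 < k ∧ j = 2 * k - (l + 2) :=
        ⟨2 * k - (j + 2), by omega, by omega⟩
      rw [wrap_high h hfix (by omega) (by omega), wrap_high h hfix (by omega) (by omega),
        hg.dist_eq, show 2 * k - (2 * k - (l + 2)) = l + 2 by omega,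
        show 2 * k - (2 * k - (l + 2) + 2) = l by omega, dist_comm, h.step_two l hl]

theorem IsChord.reach_right (h : IsChord g A B r δ k x) (hM : UniqueMid M r) :
    ∀ d ≤ k, Reach (x (k - d)) (x k) (d * δ) := by
  intro d hd
  have := h.pos
  have := h.lt
  induction d with
  | zero => simpa using Reach.refl (x k)
  | succ d ih =>
    have hd' : dist (x (k - (d + 1))) (x (k - d)) = δ := by
      rw [show k - d = k - (d + 1) + 1 by omega]
      exact h.step _ (by omega)
    have := (reach_of_dist hM (x := x (k - (d + 1))) (y := x (k - d)) (by linarith)).trans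
      (ih (by omega))
    rw [hd'] at this
    convert this using 1
    push_cast
    ring

omit [CompactSpace M] in
theorem IsChord.dist_left_le (h : IsChord g A B r δ k x) :
    ∀ i ≤ k, dist (x 0) (x i) ≤ i * δ := by
  intro i hi
  induction i with
  | zero => simp
  | succ i ih =>
    have := dist_triangle (x 0) (x i) (x (i + 1))
    have := ih (by omega)
    rw [h.step i (by omega)] at *
    push_cast
    linarith

theorem IsChord.infDist_one (h : IsChord g A B r δ k x) (hlong : IsShortest A B δ k)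
    (hM : UniqueMid M r) (hA : IsClosed A) :
    Metric.infDist (x 1) A = δ := by
  have hk := h.two_le
  have := h.pos
  have := h.lt
  have h01 : dist (x 1) (x 0) = δ := by rw [dist_comm]; exact h.step 0 (by omega)
  refine le_antisymm ((Metric.infDist_le_dist_of_mem h.left_mem).trans h01.le) ?_
  obtain ⟨a, ha, e⟩ := hA.isCompact.exists_infDist_eq_dist ⟨_, h.left_mem⟩ (x 1)
  rw [e]
  by_contra hlt
  have hh := hlong a ha _ h.right_mem _
    ((reach_of_dist hM (x := a) (y := x 1) (by rw [dist_comm]; linarith)).trans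
      (by simpa [show k - (k - 1) = 1 by omega] using h.reach_right hM (k - 1) (by omega)))
  rw [Nat.cast_sub (by omega), dist_comm] at hh
  push_cast at hh
  linarith

/-- A point on the chord at distance `δ` from `A` is the first point of the chord. -/
theorem IsChord.eq_one (h : IsChord g A B r δ k x) (hlong : IsShortest A B δ k)
    (hM : UniqueMid M r) (hA : IsClosed A) {i : ℕ} {p : ℝ} {w : M} (hi : i < k) (hp0 : 0 ≤ p) (hp1 : p ≤ 1)
    (e1 : dist (x i) w = p * δ) (e2 : dist w (x (i + 1)) = (1 - p) * δ)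
    (hw : Metric.infDist w A = δ) : w = x 1 := by
  have hδ := h.pos
  have := h.lt
  obtain ⟨a, ha, e⟩ := hA.isCompact.exists_infDist_eq_dist ⟨_, h.left_mem⟩ w
  rw [hw] at e
  have h1 : dist w (x (i + 1)) < r := by rw [e2]; nlinarith
  have hh := hlong a ha _ h.right_mem _
    (((reach_of_dist hM (x := a) (y := w) (by rw [dist_comm, ← e]; linarith)).trans
      (reach_of_dist hM h1)).trans (by
        simpa [show k - (k - (i + 1)) = i + 1 by omega] using
          h.reach_right hM (k - (i + 1)) (by omega)))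
  rw [dist_comm, ← e, e2, Nat.cast_sub (by omega)] at hh
  push_cast at hh
  have hle : δ ≤ dist w (x 0) := by rw [← hw]; exact Metric.infDist_le_dist_of_mem h.left_mem
  have := dist_triangle (x 0) (x i) w
  have := h.dist_left_le i hi.le
  rw [dist_comm] at hle
  have hle1 : (i : ℝ) + p ≤ 1 := by nlinarith
  have hge1 : 1 ≤ (i : ℝ) + p := by nlinarith
  rcases Nat.lt_or_ge i 1 with h0 | h0
  · obtain rfl : i = 0 := by omega
    refine dist_eq_zero.1 (e2.trans ?_)
    simp only [Nat.cast_zero, zero_add] at hle1 hge1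
    rw [show p = 1 by linarith]
    ring
  · have h0' : (1 : ℝ) ≤ i := by exact_mod_cast h0
    have hp' : p = 0 := by linarith
    have hi' : i = 1 := by exact_mod_cast (show (i : ℝ) = 1 by linarith)
    subst hi'
    exact (dist_eq_zero.1 (e1.trans (by rw [hp', zero_mul]))).symm

/-- An isometric involution whose fixed set is the disjoint union of closed sets `A` and `B`, with
points of `A` and `B` in one component, has a closed geodesic on which only finitely many points
have the same distance to `A` as some point that is moved. -/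
theorem exists_geodesic_of_involution (hM : UniqueMid M r) (hr : 0 < r) {g : M → M}
    (hg : Isometry g) (hgg : ∀ x, g (g x) = x) {A B : Set M} (hA : IsClosed A) (hB : IsClosed B)
    (hAB : Disjoint A B) (hfix : ∀ x, g x = x ↔ x ∈ A ∪ B) {a₀ b₀ : M} (ha₀ : a₀ ∈ A)
    (hb₀ : b₀ ∈ B) (hconn : b₀ ∈ connectedComponent a₀) :
    ∃ C : Set M, IsGeodesicImage C ∧ ∃ p ∈ C, g p ≠ p ∧
      {y | y ∈ C ∧ Metric.infDist y A = Metric.infDist p A}.Finite := by
  obtain ⟨δ, k, x, h, hlong⟩ := exists_chord hM hr hg hgg hA hB hAB hfix ha₀ hb₀ hconn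
  have hk := h.two_le
  have hδ := h.pos
  have hlt := h.lt
  have hadd := loopZ_add h hfix
  have hz1 : ∀ i, dist (loopZ g x k i) (loopZ g x k (i + 1)) = δ := by
    intro i
    obtain ⟨j, hj, hh⟩ := hadd i
    have h0 := hh 0 (by omega)
    have h1 := hh 1 (by omega)
    simp only [Nat.cast_zero, add_zero, Nat.cast_one] at h0 h1
    rw [h0, h1]
    exact dist_wrap_one h hfix hg hj
  have hgeo : IsGeodesicImage (range (chainCurve (loopZ g x k))) := by
    refine isGeodesicImage_chain hM (p := 2 * k) hδ (by linarith) (by omega) (fun i => ?_) hz1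
      fun i => ?_
    · simp only [loopZ, Int.add_emod_right]
    · obtain ⟨j, hj, hh⟩ := hadd i
      have h0 := hh 0 (by omega)
      have h2 := hh 2 le_rfl
      simp only [Nat.cast_zero, add_zero, Nat.cast_ofNat] at h0 h2
      rw [h0, h2]
      exact dist_wrap_two h hfix hg hj
  have hinv : ∀ w, Metric.infDist (g w) A = Metric.infDist w A := by
    intro w
    have e : g '' A = A :=
      (Set.image_congr fun a ha => (hfix a).2 (Or.inl ha)).trans (Set.image_id A)
    conv_lhs => rw [← e]
    exact Metric.infDist_image hg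
  refine ⟨_, hgeo, x 1, ⟨1, ?_⟩, fun hh => ?_, ?_⟩
  · have e : loopZ g x k 1 = x 1 := by
      rw [loopZ, Int.emod_eq_of_lt zero_le_one (by exact_mod_cast (show 1 < 2 * k by omega))]
      exact wrap_low (by omega)
    rw [chainCurve, Int.floor_one, Int.fract_one, seg_zero hM (by rw [hz1]; linarith), e]
  · have := h.end_left
    rw [hh, dist_self] at this
    linarith
  · refine ((Set.finite_singleton (g (x 1))).insert (x 1)).subset ?_
    rintro w ⟨⟨s, rfl⟩, hw⟩
    rw [h.infDist_one hlong hM hA] at hw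
    obtain ⟨j, hj, hh⟩ := hadd ⌊s⌋
    have h0 := hh 0 (by omega)
    have h1 := hh 1 (by omega)
    simp only [Nat.cast_zero, add_zero, Nat.cast_one] at h0 h1
    have hu0 := Int.fract_nonneg s
    have hu1 := (Int.fract_lt_one s).le
    rw [chainCurve, h0, h1] at hw ⊢
    rcases lt_or_ge j k with hjk | hjk
    · rw [wrap_low hjk.le, wrap_low hjk] at hw ⊢
      have hd : dist (x j) (x (j + 1)) < r := by rw [h.step j hjk]; linarith
      left
      refine h.eq_one hlong hM hA hjk hu0 hu1 ?_ ?_ hw
      · rw [dist_seg_left hM hd hu0 hu1, h.step j hjk]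
      · rw [dist_seg_right hM hd hu0 hu1, h.step j hjk]
    · obtain ⟨l, hl, rfl⟩ : ∃ l < k, j = 2 * k - (l + 1) :=
        ⟨2 * k - (j + 1), by omega, by omega⟩
      have hd : dist (x (l + 1)) (x l) < r := by rw [dist_comm, h.step l hl]; linarith
      rw [wrap_high h hfix hjk (by omega), wrap_high h hfix (by omega) (by omega),
        show 2 * k - (2 * k - (l + 1)) = l + 1 by omega,
        show 2 * k - (2 * k - (l + 1) + 1) = l by omega, ← map_seg hM hg hd] at hw ⊢
      rw [hinv] at hw
      right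
      rw [Set.mem_singleton_iff]
      congr 1
      refine h.eq_one hlong hM hA (p := 1 - Int.fract s) hl (by linarith) (by linarith) ?_ ?_ hw
      · rw [dist_comm, dist_seg_right hM hd hu0 hu1, dist_comm, h.step l hl]
      · rw [dist_comm, dist_seg_left hM hd hu0 hu1, dist_comm, h.step l hl]
        ring

end Vale.Agent.P216
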