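import Vale.Agent.P216.Torus

/-!
# The round two-sphere with its rotation as an example
-/

namespace Vale.Agent.P216

open InnerProductGeometry Real Set
open scoped RealInnerProductSpace

/-- Euclidean three-space, split along the axis. -/
abbrev Spc : Type := WithLp 2 (ℂ × ℝ)

/-- The unit sphere, to carry the angular metric. -/
structure Sph where
  /-- The vector. -/
  val : Spc
  norm_val : ‖val‖ = 1

theorem Sph.ext' {x y : Sph} (h : x.val = y.val) : x = y := by
  cases x; cases y; simp_all

theorem Sph.ne_zero (x : Sph) : x.val ≠ 0 := by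
  intro h
  have := x.norm_val
  simp [h] at this

noncomputable instance : MetricSpace Sph where
  dist x y := angle x.val y.val
  dist_self x := angle_self x.ne_zero
  dist_comm x y := angle_comm _ _
  dist_triangle x y z := angle_le_angle_add_angle _ _ _
  eq_of_dist_eq_zero {x y} h := by
    obtain ⟨-, c, hc, e⟩ := angle_eq_zero_iff.1 h
    have := y.norm_val
    rw [e, norm_smul, x.norm_val, mul_one, Real.norm_of_nonneg hc.le] at this
    exact Sph.ext' (by rw [e, this, one_smul])

theorem Sph.dist_def (x y : Sph) : dist x y = angle x.val y.val := rfl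

theorem Sph.cos_dist (x y : Sph) : cos (dist x y) = ⟪x.val, y.val⟫ := by
  rw [Sph.dist_def, cos_angle, x.norm_val, y.norm_val, mul_one, div_one]

/-- The round sphere and the sphere with the angular metric are homeomorphic. -/
noncomputable def toSph : ↥(Metric.sphere (0 : Spc) 1) ≃ Sph where
  toFun p := ⟨p.1, by simp⟩
  invFun x := ⟨x.val, by simp [x.norm_val]⟩
  left_inv p := rfl
  right_inv x := rfl

theorem continuous_toSph : Continuous toSph := by
  refine continuous_iff_continuousAt.2 fun p => ?_
  rw [ContinuousAt, tendsto_iff_dist_tendsto_zero]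
  have hp : (toSph p).val ≠ 0 := (toSph p).ne_zero
  have h : ContinuousAt (fun q : ↥(Metric.sphere (0 : Spc) 1) => angle q.1 (toSph p).val) p :=
    (continuousAt_angle (x := (p.1, (toSph p).val)) hp hp).comp
      (f := fun q : ↥(Metric.sphere (0 : Spc) 1) => (q.1, (toSph p).val))
      (continuous_subtype_val.prodMk continuous_const).continuousAt
  have e : angle p.1 p.1 = 0 := angle_self hp
  have := h.tendsto
  simp only [Sph.dist_def, toSph, Equiv.coe_fn_mk] at this ⊢
  rwa [e] at this

instance : CompactSpace Sph := toSph.surjective.compactSpace continuous_toSph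

theorem continuous_val : Continuous Sph.val :=
  continuous_subtype_val.comp
    (Continuous.homeoOfEquivCompactToT2 (f := toSph) continuous_toSph).symm.continuous

instance : ConnectedSpace Sph := by
  have : ConnectedSpace ↥(Metric.sphere (0 : Spc) 1) := by
    refine isConnected_iff_connectedSpace.1 (isConnected_sphere ?_ 0 zero_le_one)
    refine Module.lt_rank_of_lt_finrank ?_
    have e : Module.finrank ℝ Spc = 3 := by
      rw [(WithLp.linearEquiv 2 ℝ (ℂ × ℝ)).finrank_eq, Module.finrank_prod,
        Complex.finrank_real_complex, Module.finrank_self]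
    omega
  exact toSph.surjective.connectedSpace continuous_toSph

/-- Rotation of space about the axis. -/
noncomputable def rot (z : Circle) (v : Spc) : Spc := WithLp.toLp 2 ((z : ℂ) * v.fst, v.snd)

theorem inner_rot (z : Circle) (v w : Spc) : ⟪rot z v, rot z w⟫ = ⟪v, w⟫ := by
  simp only [rot, WithLp.prod_inner_apply, Complex.inner]
  congr 1
  have h : (starRingEnd ℂ) (z : ℂ) * (z : ℂ) = 1 := by
    rw [← Complex.normSq_eq_conj_mul_self, Circle.normSq_coe, Complex.ofReal_one]
  simp only [map_mul]
  congr 1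
  show (z : ℂ) * w.fst * ((starRingEnd ℂ) (z : ℂ) * (starRingEnd ℂ) v.fst) =
    w.fst * (starRingEnd ℂ) v.fst
  linear_combination (w.fst * (starRingEnd ℂ) v.fst) * h

theorem norm_rot (z : Circle) (v : Spc) : ‖rot z v‖ = ‖v‖ := by
  rw [norm_eq_sqrt_real_inner, inner_rot, ← norm_eq_sqrt_real_inner]

noncomputable instance : MulAction (Fin 1 → Circle) Sph where
  smul φ x := ⟨rot (φ 0) x.val, by rw [norm_rot, x.norm_val]⟩
  one_smul x := Sph.ext' (show rot ((1 : Fin 1 → Circle) 0) x.val = x.val by
    simp [rot]; rfl)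
  mul_smul φ ψ x := Sph.ext' (show rot ((φ * ψ) 0) x.val = rot (φ 0) (rot (ψ 0) x.val) by
    simp [rot, mul_assoc])

theorem Sph.smul_val (φ : Fin 1 → Circle) (x : Sph) : (φ • x).val = rot (φ 0) x.val := rfl

instance : ContinuousSMul (Fin 1 → Circle) Sph := by
  constructor
  have h : Continuous fun p : (Fin 1 → Circle) × Sph => rot (p.1 0) p.2.val := by
    have h2 : Continuous fun p : (Fin 1 → Circle) × Sph => p.2.val :=
      continuous_val.comp continuous_snd
    refine (WithLp.prod_continuous_toLp 2 ℂ ℝ).comp (.prodMk ?_ ?_)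
    · exact (continuous_subtype_val.comp ((continuous_apply 0).comp continuous_fst)).mul
        ((WithLp.prod_continuous_ofLp 2 ℂ ℝ).comp h2).fst
    · exact ((WithLp.prod_continuous_ofLp 2 ℂ ℝ).comp h2).snd
  exact continuous_toSph.comp
    (h.subtype_mk fun p => by simp [norm_rot, p.2.norm_val])

theorem isometry_smul_sph (φ : Fin 1 → Circle) : Isometry fun x : Sph => φ • x := by
  refine Isometry.of_dist_eq fun x y => ?_
  rw [Sph.dist_def, Sph.dist_def, angle, angle, Sph.smul_val, Sph.smul_val, inner_rot, norm_rot,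
    norm_rot]

theorem uniqueMid_sph : UniqueMid Sph π := by
  intro x y h
  set θ := dist x y with hθ
  have hθ0 : 0 ≤ θ := dist_nonneg
  set c := cos (θ / 2) with hc
  have hc0 : 0 < c := cos_pos_of_mem_Ioo ⟨by linarith [pi_pos], by linarith⟩
  have hxx : ⟪x.val, x.val⟫ = 1 := by rw [real_inner_self_eq_norm_sq, x.norm_val, one_pow]
  have hyy : ⟪y.val, y.val⟫ = 1 := by rw [real_inner_self_eq_norm_sq, y.norm_val, one_pow]
  have hxy : ⟪x.val, y.val⟫ = 2 * c ^ 2 - 1 := by
    rw [← Sph.cos_dist, ← hθ, hc, ← cos_two_mul]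
    ring_nf
  have hyx : ⟪y.val, x.val⟫ = 2 * c ^ 2 - 1 := by rw [real_inner_comm, hxy]
  set m : Spc := (2 * c)⁻¹ • (x.val + y.val) with hm
  have hmm : ⟪m, m⟫ = 1 := by
    simp only [hm, inner_smul_left, inner_smul_right, inner_add_left, inner_add_right,
      RCLike.conj_to_real, hxx, hyy, hxy, hyx]
    field_simp
    ring
  have hmn : ‖m‖ = 1 := by rw [norm_eq_sqrt_real_inner, hmm, Real.sqrt_one]
  have hdist : ∀ a b : Sph, ⟪a.val, b.val⟫ = c → dist a b = θ / 2 := by
    intro a b e
    rw [Sph.dist_def, angle, a.norm_val, b.norm_val, mul_one, div_one, e, hc]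
    exact arccos_cos (by linarith) (by linarith [pi_pos])
  refine ⟨⟨m, hmn⟩, ⟨hdist _ _ ?_, hdist _ _ ?_⟩, ?_⟩
  · show ⟪x.val, m⟫ = c
    simp only [hm, inner_smul_right, inner_add_right, hxx, hxy]
    field_simp
    ring
  · show ⟪m, y.val⟫ = c
    simp only [hm, inner_smul_left, inner_add_left, RCLike.conj_to_real, hyy, hxy]
    field_simp
    ring
  · rintro p ⟨h1, h2⟩
    have e1 : ⟪x.val, p.val⟫ = c := by rw [← Sph.cos_dist, h1, hc]
    have e2 : ⟪p.val, y.val⟫ = c := by rw [← Sph.cos_dist, h2, hc]
    have e3 : ⟪p.val, p.val⟫ = 1 := by rw [real_inner_self_eq_norm_sq, p.norm_val, one_pow]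
    refine Sph.ext' ?_
    have hz : ⟪(x.val + y.val) - (2 * c) • p.val, (x.val + y.val) - (2 * c) • p.val⟫ = (0 : ℝ) := by
      simp only [inner_sub_left, inner_sub_right, inner_smul_left, inner_smul_right,
        inner_add_left, inner_add_right, RCLike.conj_to_real, hxx, hyy, hxy, hyx, e3, e1, e2,
        (real_inner_comm x.val p.val).trans e1, (real_inner_comm p.val y.val).trans e2]
      ring
    rw [inner_self_eq_zero, sub_eq_zero] at hz
    show p.val = m
    rw [hm, hz, smul_smul, inv_mul_cancel₀ (by linarith), one_smul]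

theorem disconnected_fixed_sph :
    ¬ IsPreconnected {x : Sph | ∀ φ : Fin 1 → Circle, φ • x = x} := by
  intro hF
  have hpole : ∀ t : ℝ, |t| = 1 → ∃ x : Sph,
      (∀ φ : Fin 1 → Circle, φ • x = x) ∧ x.val.snd = t := by
    intro t ht
    refine ⟨⟨WithLp.toLp 2 (0, t), ?_⟩, fun φ => Sph.ext' ?_, rfl⟩
    · simp [ht]
    · simp [Sph.smul_val, rot]
  obtain ⟨N, hN, hN1⟩ := hpole 1 (by simp)
  obtain ⟨S, hS, hS1⟩ := hpole (-1) (by simp)
  have hc : Continuous fun x : Sph => x.val.snd :=
    ((WithLp.prod_continuous_ofLp 2 ℂ ℝ).comp continuous_val).snd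
  obtain ⟨x, hx, hx0⟩ := hF.intermediate_value hS hN hc.continuousOn
    (show (0 : ℝ) ∈ Icc S.val.snd N.val.snd by rw [hS1, hN1]; simp)
  have h1 := hx fun _ => Circle.exp π
  have h2 := congrArg (fun y : Sph => y.val.fst) h1
  simp [Sph.smul_val, rot] at h2
  have h3 : x.val.fst = 0 := by linear_combination (-1 / 2 : ℂ) * h2
  have h4 := x.norm_val
  rw [WithLp.prod_norm_eq_of_L2] at h4
  simp [h3, hx0] at h4

end Vale.Agent.P216
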