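import Vale.Agent.P216.FixedPoint
import Vale.Agent.P216.Sphere
import Vale.Agent.P371.All.Brouwer

/-!
# Circle actions with a fixed point, and spheres
-/

namespace Vale.Agent.P216

open Filter Topology Set Function
open scoped RealInnerProductSpace

variable {M : Type*} [MetricSpace M] [CompactSpace M] [ConnectedSpace M] {r : ℝ}
  [MulAction Circle M] [ContinuousSMul Circle M]

theorem infinite_geodesics_circle (hM : UniqueMid M r) (hext : UniqueExt M r) (hr : 0 < r)
    (hiso : ∀ φ : Circle, Isometry fun x : M => φ • x)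
    (hsurj : ∀ f : C(M, M), (ContinuousMap.id M).Homotopic f → Surjective f)
    {a₀ : M} (ha₀ : ∀ φ : Circle, φ • a₀ = a₀) {φ₁ : Circle} {b : M} (hb : φ₁ • b ≠ b) :
    {C : Set M | IsGeodesicImage C}.Infinite := by
  classical
  have hex : ∃ j : ℕ, ∃ x : M, Circle.exp (2 * Real.pi / 2 ^ j) • x ≠ x := by
    by_contra hcon
    push Not at hcon
    refine hb ?_
    set S := MulAction.stabilizer Circle b
    exact circle_mem_of_dyadic (Z := {z | z • b = b})
      (isClosed_eq (continuous_id.smul continuous_const) continuous_const) (one_smul _ _)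
      (fun u hu v hv => (S.mul_mem hu hv : u * v ∈ S)) (fun u hu => (S.inv_mem hu : u⁻¹ ∈ S))
      (fun j => hcon j b) φ₁
  obtain ⟨b₁, hb₁⟩ := Nat.find_spec hex
  have hmin := fun m hm => Nat.find_min hex (m := m) hm
  obtain ⟨j, hj⟩ : ∃ j, Nat.find hex = j + 1 := by
    refine Nat.exists_eq_succ_of_ne_zero fun h0 => ?_
    rw [h0] at hb₁
    simp at hb₁
  have hbelow : ∀ x : M, Circle.exp (2 * Real.pi / 2 ^ j) • x = x := by
    have := hmin j (by omega)
    push Not at this
    exact this
  rw [hj] at hb₁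
  refine infinite_geodesics_involution hM hext hr hiso hsurj (Circle.exp (2 * Real.pi / 2 ^ (j + 1)))
    (fun φ x => by rw [smul_smul, mul_comm, ← smul_smul]) (fun x => ?_) (ha₀ _) hb₁
  rw [smul_smul, ← Circle.exp_add,
    show 2 * Real.pi / 2 ^ (j + 1) + 2 * Real.pi / 2 ^ (j + 1) = 2 * Real.pi / 2 ^ j by
      rw [pow_succ]; field_simp; ring]
  exact hbelow x

omit [CompactSpace M] [ConnectedSpace M] [MulAction Circle M] [ContinuousSMul Circle M] in
/-- On a sphere a map which is homotopic to the identity is onto. -/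
theorem surjective_of_homotopic_id {E : Type*} [NormedAddCommGroup E] [InnerProductSpace ℝ E]
    [FiniteDimensional ℝ E] {X : Type*} [TopologicalSpace X]
    (e : X ≃ₜ ↥(Metric.sphere (0 : E) 1)) (f : C(X, X))
    (hf : (ContinuousMap.id X).Homotopic f) : Surjective f := by
  obtain ⟨H⟩ := hf
  intro y₀
  by_contra hcon
  push Not at hcon
  set q : E := (e y₀ : E) with hq
  have hqn : ‖q‖ = 1 := by simp [q]
  set v : X → ℝ → E := fun x s => (1 - s) • (e (f x) : E) + s • (-q) with hv
  have hne : ∀ x, ∀ s ∈ Icc (0 : ℝ) 1, v x s ≠ 0 := by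
    intro x s hs h0
    simp only [hv, smul_neg, ← sub_eq_add_neg, sub_eq_zero] at h0
    have hn : ‖(e (f x) : E)‖ = 1 := by simp
    have h1 := congrArg norm h0
    rw [norm_smul, norm_smul, hn, hqn, Real.norm_of_nonneg (by linarith [hs.2]),
      Real.norm_of_nonneg hs.1, mul_one, mul_one] at h1
    rw [h1] at h0
    exact hcon x (e.injective (Subtype.ext (smul_right_injective E
      (show s ≠ 0 by linarith) h0)))
  set G : ↥(Metric.sphere (0 : E) 1) → ℝ → E := fun p τ =>
    if τ ≤ 1 / 2 then (e (H (projIcc 0 1 zero_le_one (2 * τ), e.symm p)) : E)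
    else ‖v (e.symm p) (cl (2 * τ - 1))‖⁻¹ • v (e.symm p) (cl (2 * τ - 1)) with hG
  have hGn : ∀ p τ, ‖G p τ‖ = 1 := by
    intro p τ
    simp only [hG]
    split_ifs
    · simp
    · rw [norm_smul, norm_inv, norm_norm]
      exact inv_mul_cancel₀ (norm_ne_zero_iff.2 (hne _ _ (cl_mem _)))
  have hGc : Continuous fun x : ↥(Metric.sphere (0 : E) 1) × ℝ => G x.1 x.2 := by
    have hcl := continuous_cl
    have hvc : Continuous fun x : ↥(Metric.sphere (0 : E) 1) × ℝ =>
        v (e.symm x.1) (cl (2 * x.2 - 1)) := by simp only [hv]; fun_prop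
    refine continuous_if_le continuous_snd continuous_const
      (continuous_subtype_val.comp (e.continuous.comp (H.continuous.comp
        ((continuous_projIcc.comp (by fun_prop)).prodMk (by fun_prop))))).continuousOn
      ((hvc.norm.inv₀ fun x => norm_ne_zero_iff.2 (hne _ _ (cl_mem _))).smul hvc).continuousOn
      fun x hx => ?_
    simp only [hx]
    norm_num [cl, hv]
  have hG0 : ∀ p, G p 0 = (p : E) := by
    intro p
    simp only [hG]
    norm_num
  have hG1 : ∀ p, G p 1 = -q := by
    intro p
    simp only [hG]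
    norm_num [cl, hv, hqn]
  -- extend to the ball, then compose with the antipodal map
  classical
  set T : E → E := fun x => if hx : x = 0 then q
    else -(G ⟨‖x‖⁻¹ • x, by simp [norm_smul, hx]⟩ (cl (2 - 2 * ‖x‖))) with hT
  have hTc : ContinuousOn T univ := by
    rw [continuousOn_univ, continuous_iff_continuousAt]
    intro x
    by_cases hx : x = 0
    · subst hx
      refine ContinuousAt.congr (f := fun _ : E => q) continuousAt_const ?_
      filter_upwards [Metric.ball_mem_nhds (0 : E) (show (0 : ℝ) < 1 / 2 by norm_num)] with y hy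
      simp only [Metric.mem_ball, dist_zero_right] at hy
      simp only [hT]
      split_ifs
      · rfl
      · rw [show cl (2 - 2 * ‖y‖) = 1 by
          rw [cl, min_eq_right (by linarith), max_eq_right zero_le_one], hG1, neg_neg]
    · have hcl := continuous_cl
      have hopen : IsOpen {y : E | y ≠ 0} := isOpen_ne
      refine ContinuousOn.continuousAt ?_ (hopen.mem_nhds hx)
      rw [continuousOn_iff_continuous_domRestrict]
      have hinv : Continuous fun y : {y : E | y ≠ 0} => ‖y.1‖⁻¹ • y.1 :=
        ((continuous_norm.comp continuous_subtype_val).inv₀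
          fun y => norm_ne_zero_iff.2 y.2).smul continuous_subtype_val
      refine ((hGc.comp (f := fun y : {y : E | y ≠ 0} =>
        ((⟨‖y.1‖⁻¹ • y.1, by simp [norm_smul, show (y.1 : E) ≠ 0 from y.2]⟩ :
          ↥(Metric.sphere (0 : E) 1)), cl (2 - 2 * ‖y.1‖)))
        ((hinv.subtype_mk fun y => by
          simp [norm_smul, show (y.1 : E) ≠ 0 from y.2]).prodMk (by fun_prop))).neg).congr
        fun y => ?_
      simp [Set.domRestrict, hT, show (y.1 : E) ≠ 0 from y.2]
  have hTn : ∀ x, ‖T x‖ = 1 := by
    intro x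
    simp only [hT]
    split_ifs
    · exact hqn
    · rw [norm_neg, hGn]
  obtain ⟨x, -, hx⟩ := Vale.Agent.P371.All.brouwer_euclidean (isCompact_closedBall (0 : E) 1)
    (convex_closedBall 0 1) ⟨0, by simp⟩ (hTc.mono (subset_univ _))
    (fun x _ => by simp [hTn x])
  have hxn : ‖x‖ = 1 := by rw [← hx]; exact hTn x
  have hx0 : x ≠ 0 := by intro h; simp [h] at hxn
  simp only [hT, dif_neg hx0] at hx
  have hc : cl (2 - 2 * ‖x‖) = 0 := by rw [hxn]; norm_num [cl]
  rw [hc, hG0] at hx
  simp only [hxn, inv_one, one_smul] at hx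
  rw [neg_eq_iff_add_eq_zero, ← two_smul ℝ, smul_eq_zero] at hx
  exact hx0 (hx.resolve_left two_ne_zero)

theorem uniqueExt_sph : UniqueExt Sph Real.pi := by
  have key : ∀ x m y : Sph, dist x y < Real.pi → IsMid x y m →
      y.val = (2 * ⟪x.val, m.val⟫) • m.val - x.val := by
    intro x m y h hm
    obtain ⟨m', hm', huniq⟩ := uniqueMid_sph x y h
    rw [huniq m hm, ← huniq m hm]
    set c := ⟪x.val, m.val⟫ with hc
    have hcy : ⟪m.val, y.val⟫ = c := by
      rw [hc, ← Sph.cos_dist, ← Sph.cos_dist, hm.1, hm.2]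
    have hxx : ⟪x.val, x.val⟫ = 1 := by rw [real_inner_self_eq_norm_sq, x.norm_val, one_pow]
    have hyy : ⟪y.val, y.val⟫ = 1 := by rw [real_inner_self_eq_norm_sq, y.norm_val, one_pow]
    have hmm : ⟪m.val, m.val⟫ = 1 := by rw [real_inner_self_eq_norm_sq, m.norm_val, one_pow]
    have hxy : ⟪x.val, y.val⟫ = 2 * c ^ 2 - 1 := by
      rw [hc, ← Sph.cos_dist, ← Sph.cos_dist, hm.1, ← Real.cos_two_mul]
      ring_nf
    have hz : ⟪y.val + x.val - (2 * c) • m.val, y.val + x.val - (2 * c) • m.val⟫ = (0 : ℝ) := by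
      simp only [inner_sub_left, inner_sub_right, inner_smul_left, inner_smul_right,
        inner_add_left, inner_add_right, RCLike.conj_to_real, hxx, hyy, hmm,
        (real_inner_comm x.val y.val).trans hxy, hxy, hcy, ← hc,
        (real_inner_comm x.val m.val).trans hc.symm, (real_inner_comm m.val y.val).trans hcy]
      ring
    rw [inner_self_eq_zero, sub_eq_zero] at hz
    rw [← hz]
    abel
  intro x m y y' h h' hy hy'
  exact Sph.ext' ((key x m y h hy).trans (key x m y' h' hy').symm)

end Vale.Agent.P216
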