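import Vale.Agent.P216.Chord

/-!
# Infinitely many closed geodesics for isometric actions with disconnected fixed set
-/

namespace Vale.Agent.P216

open Filter Topology Set Function

section Group

variable {M : Type*} [MetricSpace M] [CompactSpace M] {G : Type*} [Group G] [TopologicalSpace G]
  [IsTopologicalGroup G] [ConnectedSpace G] [MulAction G M] [ContinuousSMul G M]

/-- A connected group preserves a compact set which it moves only within finitely many images. -/
theorem smul_mem_of_finite_images (C : Set M) (hC : IsClosed C)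
    (hfin : (range fun φ : G => (φ • ·) '' C).Finite) (φ : G) {y : M} (hy : y ∈ C) : φ • y ∈ C := by
  classical
  have hfib : ∀ D ∈ range (fun φ : G => (φ • ·) '' C),
      IsClosed {ψ : G | (ψ • ·) '' C = D} := by
    rintro D ⟨ψ₀, rfl⟩
    have hD : IsClosed ((ψ₀ • ·) '' C) :=
      (hC.isCompact.image (continuous_const_smul ψ₀)).isClosed
    have e : {ψ : G | (ψ • ·) '' C = (ψ₀ • ·) '' C} =
        (⋂ z ∈ C, {ψ : G | ψ • z ∈ (ψ₀ • ·) '' C}) ∩
          ⋂ z ∈ (ψ₀ • ·) '' C, {ψ : G | ψ⁻¹ • z ∈ C} := by
      ext ψ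
      simp only [mem_ofPred_eq, mem_inter_iff, mem_iInter]
      constructor
      · intro h
        refine ⟨fun z hz => h ▸ mem_image_of_mem _ hz, fun z hz => ?_⟩
        rw [← h] at hz
        obtain ⟨w, hw, rfl⟩ := hz
        simpa using hw
      · rintro ⟨h1, h2⟩
        refine Subset.antisymm ?_ fun z hz => ⟨ψ⁻¹ • z, h2 z hz, by simp⟩
        rintro _ ⟨z, hz, rfl⟩
        exact h1 z hz
    rw [e]
    exact IsClosed.inter
      (isClosed_biInter fun z _ => hD.preimage (continuous_id.smul continuous_const))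
      (isClosed_biInter fun z _ => hC.preimage (continuous_inv.smul continuous_const))
  set S := {ψ : G | (ψ • ·) '' C = C}
  have h1 : (1 : G) ∈ S := by simp [S]
  have hSc : IsClosed S := hfib C ⟨1, by simp⟩
  have hcompl : Sᶜ = ⋃ D ∈ range (fun φ : G => (φ • ·) '' C) \ {C},
      {ψ : G | (ψ • ·) '' C = D} := by
    ext ψ
    simp [S]
  have hSo : IsOpen S := by
    rw [← isClosed_compl_iff, hcompl]
    exact hfin.sdiff.isClosed_biUnion fun D hD => hfib D hD.1
  have huniv : S = univ := IsClopen.eq_univ ⟨hSc, hSo⟩ ⟨1, h1⟩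
  have hφ : φ ∈ S := huniv ▸ mem_univ φ
  have h2 : φ • y ∈ (φ • ·) '' C := mem_image_of_mem _ hy
  rwa [show (φ • ·) '' C = C from hφ] at h2

end Group

variable {M : Type*} [MetricSpace M] [CompactSpace M] {G : Type*} [CommGroup G] [TopologicalSpace G]
  [IsTopologicalGroup G] [ConnectedSpace G] [MulAction G M] [ContinuousSMul G M]

/-- The points fixed by the first `n` elements of a sequence in the group. -/
def fixLevel (g : ℕ → G) (n : ℕ) : Set M := {x | ∀ i < n, g i • x = x}

theorem infinite_geodesics [ConnectedSpace M] {r : ℝ} (hM : UniqueMid M r) (hr : 0 < r)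
    (hiso : ∀ φ : G, Isometry fun x : M => φ • x) (g : ℕ → G)
    (hsq : ∀ n, ∀ x : M, x ∈ fixLevel g n → g n • g n • x = x)
    (hall : ∀ x : M, (∀ n, g n • x = x) → ∀ φ : G, φ • x = x)
    (hdisc : ¬ IsPreconnected {x : M | ∀ φ : G, φ • x = x}) :
    {C : Set M | IsGeodesicImage C}.Infinite := by
  -- the two parts of the fixed set
  set F : Set M := {x | ∀ φ : G, φ • x = x} with hFdef
  have hFc : IsClosed F := by
    simp only [hFdef, ofPred_forall]
    exact isClosed_iInter fun φ => isClosed_eq (continuous_const_smul φ) continuous_id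
  rw [isPreconnected_closed_iff] at hdisc
  push Not at hdisc
  obtain ⟨u, v, hu, hv, hFuv, ⟨a, haF, hau⟩, ⟨b, hbF, hbv⟩, hne⟩ := hdisc
  have hclosed : ∀ n, IsClosed (fixLevel (M := M) g n) := by
    intro n
    simp only [fixLevel, ofPred_forall]
    exact isClosed_iInter fun i => isClosed_iInter fun _ =>
      isClosed_eq (continuous_const_smul _) continuous_id
  have hanti : ∀ m n, m ≤ n → fixLevel (M := M) g n ⊆ fixLevel g m :=
    fun m n hmn x hx i hi => hx i (hi.trans_le hmn)
  have hFlev : ∀ n, F ⊆ fixLevel g n := fun n x hx i _ => hx (g i)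
  -- at a high level `a` and `b` lie in different components
  obtain ⟨n₀, hn₀⟩ : ∃ n, b ∉ connectedComponentIn (fixLevel g n) a := by
    by_contra hcon
    push Not at hcon
    have hd : Disjoint (F ∩ u) (F ∩ v) := by
      rw [Set.disjoint_left]
      rintro x ⟨hx, hxu⟩ ⟨_, hxv⟩
      exact Set.eq_empty_iff_forall_notMem.1 hne x ⟨hx, hxu, hxv⟩
    obtain ⟨U, V, hU, hV, hFU, hFV, hUV⟩ :=
      normal_separation (hFc.inter hu) (hFc.inter hv) hd
    have : ∃ n, fixLevel (M := M) g n ⊆ U ∪ V := by
      refine exists_subset_nhds_of_isCompact' (directed_of_isDirected_le fun m n h => hanti m n h)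
        (fun n => (hclosed n).isCompact) hclosed fun x hx => ?_
      rw [mem_iInter] at hx
      have hxF : x ∈ F := fun φ => hall x (fun n => hx (n + 1) n (by omega)) φ
      refine (hU.union hV).mem_nhds ?_
      rcases hFuv hxF with h | h
      · exact Or.inl (hFU ⟨hxF, h⟩)
      · exact Or.inr (hFV ⟨hxF, h⟩)
    obtain ⟨n, hn⟩ := this
    have hK := isPreconnected_connectedComponentIn (F := fixLevel (M := M) g n) (x := a)
    have haK : a ∈ connectedComponentIn (fixLevel g n) a :=
      mem_connectedComponentIn (hFlev n haF)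
    have hsub := hK.subset_left_of_subset_union hU hV hUV
      ((connectedComponentIn_subset _ _).trans hn) ⟨a, haK, hFU ⟨haF, hau⟩⟩
    exact Set.disjoint_left.1 hUV (hsub (hcon n)) (hFV ⟨hbF, hbv⟩)
  -- the last level at which they lie in one component
  classical
  have hex : ∃ n, b ∉ connectedComponentIn (fixLevel g n) a := ⟨n₀, hn₀⟩
  obtain ⟨N, hN, hmin⟩ : ∃ N, b ∉ connectedComponentIn (fixLevel g N) a ∧
      ∀ m < N, b ∈ connectedComponentIn (fixLevel g m) a :=
    ⟨Nat.find hex, Nat.find_spec hex, fun m hm => not_not.1 (Nat.find_min hex hm)⟩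
  obtain ⟨n, rfl⟩ : ∃ n, N = n + 1 := by
    refine Nat.exists_eq_succ_of_ne_zero fun h0 => hN ?_
    subst h0
    have e : fixLevel (M := M) g 0 = univ := by ext x; simp [fixLevel]
    rw [e, connectedComponentIn_univ, PreconnectedSpace.connectedComponent_eq_univ]
    trivial
  have hab : b ∈ connectedComponentIn (fixLevel g n) a := hmin n n.lt_succ_self
  -- work inside the fixed set of the first `n` elements
  have hinv : ∀ (φ : G) {x : M} (m : ℕ), x ∈ fixLevel g m → φ • x ∈ fixLevel g m := by
    intro φ x m hx i hi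
    rw [smul_smul, mul_comm, ← smul_smul, hx i hi]
  have hHc : CompactSpace ↥(fixLevel (M := M) g n) :=
    isCompact_iff_compactSpace.1 (hclosed n).isCompact
  let act : G → ↥(fixLevel (M := M) g n) → ↥(fixLevel (M := M) g n) := fun φ x =>
    ⟨φ • x.1, hinv φ n x.2⟩
  have hact : ∀ φ, Isometry (act φ) := fun φ =>
    Isometry.of_dist_eq fun x y => (hiso φ).dist_eq x.1 y.1
  have hM' : UniqueMid ↥(fixLevel (M := M) g n) r := by
    intro x y hxy
    obtain ⟨m, hm, huniq⟩ := hM x.1 y.1 hxy
    have hmem : m ∈ fixLevel g n := by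
      intro i hi
      refine huniq _ ?_
      have h := IsMid.map (hiso (g i)) hm
      rwa [x.2 i hi, y.2 i hi] at h
    exact ⟨⟨m, hmem⟩, hm, fun m' hm' => Subtype.ext (huniq m'.1 hm')⟩
  set T : Set ↥(fixLevel (M := M) g n) := {x | act (g n) x = x} with hT
  have hTc : IsClosed T := isClosed_eq (hact (g n)).continuous continuous_id
  have hTlev : ∀ x : ↥(fixLevel (M := M) g n), x ∈ T ↔ x.1 ∈ fixLevel g (n + 1) := by
    intro x
    simp only [hT, mem_ofPred_eq, Subtype.ext_iff, act, fixLevel]
    constructor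
    · intro h i hi
      rcases Nat.lt_succ_iff_lt_or_eq.1 hi with hi | rfl
      · exact x.2 i hi
      · exact h
    · exact fun h => h n n.lt_succ_self
  set a' : ↥(fixLevel (M := M) g n) := ⟨a, hFlev n haF⟩
  set b' : ↥(fixLevel (M := M) g n) := ⟨b, hFlev n hbF⟩
  have haT : a' ∈ T := (hTlev a').2 (hFlev _ haF)
  have hbT : b' ∈ T := (hTlev b').2 (hFlev _ hbF)
  have hconn : b' ∈ connectedComponent a' := by
    rw [connectedComponentIn_eq_image (hFlev n haF)] at hab
    obtain ⟨y, hy, e⟩ := hab
    rwa [show b' = y from Subtype.ext e.symm]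
  have : CompactSpace ↥T := isCompact_iff_compactSpace.1 hTc.isCompact
  have hnot : (⟨b', hbT⟩ : ↥T) ∉ connectedComponent (⟨a', haT⟩ : ↥T) := by
    intro h
    refine hN ?_
    have hK : IsPreconnected ((fun x : ↥T => x.1.1) '' connectedComponent (⟨a', haT⟩ : ↥T)) :=
      isPreconnected_connectedComponent.image _
        (continuous_subtype_val.comp continuous_subtype_val).continuousOn
    exact hK.subset_connectedComponentIn ⟨_, mem_connectedComponent, rfl⟩
      (by rintro _ ⟨x, _, rfl⟩; exact (hTlev x.1).1 x.2) ⟨_, h, rfl⟩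
  rw [connectedComponent_eq_iInter_isClopen, mem_iInter] at hnot
  push Not at hnot
  obtain ⟨⟨W, hW, haW⟩, hbW⟩ := hnot
  set A : Set ↥(fixLevel (M := M) g n) := Subtype.val '' W with hA
  set B : Set ↥(fixLevel (M := M) g n) := Subtype.val '' Wᶜ with hB
  have hgg : ∀ x, act (g n) (act (g n) x) = x := fun x => Subtype.ext (hsq n x.1 x.2)
  have hfix : ∀ x, act (g n) x = x ↔ x ∈ A ∪ B := by
    intro x
    rw [hA, hB, ← image_union, union_compl_self, image_univ, Subtype.range_coe_subtype]
    rfl
  obtain ⟨C, hC, p, hpC, hgp, hfinC⟩ := exists_geodesic_of_involution hM' hr (hact (g n)) hgg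
    (hW.1.isCompact.image continuous_subtype_val).isClosed
    (hW.compl.1.isCompact.image continuous_subtype_val).isClosed
    (disjoint_image_of_injective Subtype.val_injective disjoint_compl_right) hfix
    (a₀ := a') ⟨_, haW, rfl⟩ (b₀ := b') ⟨⟨b', hbT⟩, hbW, rfl⟩ hconn
  -- the images of the geodesic
  set C₀ : Set M := Subtype.val '' C with hC₀
  have hC₀g : IsGeodesicImage C₀ := hC.image isometry_subtype_coe
  intro hfinite
  have hfimg : (range fun φ : G => (φ • ·) '' C₀).Finite :=
    hfinite.subset (range_subset_iff.2 fun φ => hC₀g.image (hiso φ))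
  have hCinv : ∀ φ : G, ∀ y ∈ C, act φ y ∈ C := by
    intro φ y hy
    obtain ⟨z, hz, e⟩ :=
      smul_mem_of_finite_images C₀ hC₀g.isClosed hfimg φ (mem_image_of_mem _ hy)
    rwa [show act φ y = z from Subtype.ext e.symm]
  -- the group preserves `A`
  have hAinv : ∀ φ : G, ∀ y ∈ A, act φ y ∈ A := by
    rintro φ _ ⟨y, hy, rfl⟩
    have hmem : ∀ ψ : G, act ψ y.1 ∈ T := fun ψ => (hTlev _).2 (hinv ψ _ ((hTlev _).1 y.2))
    let o : G → ↥T := fun ψ => ⟨act ψ y.1, hmem ψ⟩
    have ho : Continuous o :=
      ((continuous_id.smul continuous_const).subtype_mk _).subtype_mk _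
    have hsub := (isPreconnected_range ho).subset_isClopen hW
      ⟨o 1, mem_range_self _, by
        rwa [show o 1 = y from Subtype.ext (Subtype.ext (one_smul G _))]⟩
    exact ⟨o φ, hsub (mem_range_self φ), rfl⟩
  have hdistA : ∀ φ : G, Metric.infDist (act φ p) A = Metric.infDist p A := by
    intro φ
    have e : act φ '' A = A := by
      refine Subset.antisymm (image_subset_iff.2 (hAinv φ)) fun y hy => ?_
      exact ⟨act φ⁻¹ y, hAinv _ y hy, Subtype.ext (smul_inv_smul φ y.1)⟩
    conv_lhs => rw [← e]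
    exact Metric.infDist_image (hact φ)
  -- a finite connected orbit
  have hcont : Continuous fun φ : G => act φ p :=
    (continuous_id.smul continuous_const).subtype_mk _
  have hsub : (range fun φ : G => act φ p).Subsingleton := by
    refine not_nontrivial_iff.1 fun hnt => (isPreconnected_range hcont).infinite_of_nontrivial hnt ?_
    refine hfinC.subset ?_
    rintro _ ⟨φ, rfl⟩
    exact ⟨hCinv φ p hpC, hdistA φ⟩
  refine hgp ((hsub (mem_range_self (g n)) (mem_range_self (1 : G))).trans ?_)
  exact Subtype.ext (one_smul G _)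

end Vale.Agent.P216
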