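import Vale.Agent.P216.Descent

/-!
# Isometric torus actions with disconnected fixed set
-/

namespace Vale.Agent.P216

open Filter Topology Set Function

/-- A closed submonoid-like set of the circle which contains all dyadic roots of unity is full. -/
theorem circle_mem_of_dyadic {Z : Set Circle} (hZ : IsClosed Z) (h1 : (1 : Circle) ∈ Z)
    (hmul : ∀ a ∈ Z, ∀ b ∈ Z, a * b ∈ Z) (hinv : ∀ a ∈ Z, a⁻¹ ∈ Z)
    (hgen : ∀ j : ℕ, Circle.exp (2 * Real.pi / 2 ^ j) ∈ Z) (z : Circle) : z ∈ Z := by
  obtain ⟨t, rfl⟩ := Circle.exp_surjective z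
  set u : ℕ → ℝ := fun j => (⌊t / (2 * Real.pi / 2 ^ j)⌋ : ℤ) * (2 * Real.pi / 2 ^ j) with hu
  have hlim : Tendsto u atTop (𝓝 t) := by
    rw [tendsto_iff_dist_tendsto_zero]
    refine squeeze_zero (fun j => dist_nonneg) (g := fun j => 2 * Real.pi * (1 / 2) ^ j)
      (fun j => ?_) (by simpa using (tendsto_pow_atTop_nhds_zero_of_lt_one (r := (1 / 2 : ℝ))
        (by norm_num) (by norm_num)).const_mul (2 * Real.pi))
    have hc : 0 < 2 * Real.pi / 2 ^ j := by positivity
    have h1 := (le_div_iff₀ hc).1 (Int.floor_le (t / (2 * Real.pi / 2 ^ j)))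
    have h2 := (div_lt_iff₀ hc).1 (Int.lt_floor_add_one (t / (2 * Real.pi / 2 ^ j)))
    have e : 2 * Real.pi * (1 / 2) ^ j = 2 * Real.pi / 2 ^ j := by
      rw [one_div, inv_pow, div_eq_mul_inv]
    rw [Real.dist_eq, e, abs_le]
    simp only [hu]
    constructor <;> linarith
  refine hZ.mem_of_tendsto ((Circle.exp.continuous.tendsto t).comp hlim) (Eventually.of_forall ?_)
  intro j
  have hpow : ∀ a ∈ Z, ∀ m : ℕ, a ^ m ∈ Z := by
    intro a ha m
    induction m with
    | zero => simpa using h1
    | succ m ih => rw [pow_succ]; exact hmul _ ih _ ha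
  simp only [Function.comp, hu, Circle.exp_intCast_mul]
  obtain ⟨m, hm | hm⟩ := Int.eq_nat_or_neg ⌊t / (2 * Real.pi / 2 ^ j)⌋
  · rw [hm, zpow_natCast]
    exact hpow _ (hgen j) m
  · rw [hm, zpow_neg, zpow_natCast]
    exact hinv _ (hpow _ (hgen j) m)

variable {M : Type*} [MetricSpace M] [CompactSpace M] [ConnectedSpace M] {k : ℕ}
  [MulAction (Fin k → Circle) M] [ContinuousSMul (Fin k → Circle) M]

/-- The generators: dyadic rotations of the single factors, in order of their orders. -/
noncomputable def gen (k n : ℕ) : Fin (k + 1) → Circle :=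
  Pi.mulSingle ⟨n % (k + 1), Nat.mod_lt n k.succ_pos⟩
    (Circle.exp (2 * Real.pi / 2 ^ (n / (k + 1) + 1)))

theorem infinite_geodesics_torus {r : ℝ} (hM : UniqueMid M r) (hr : 0 < r)
    (hiso : ∀ φ : Fin k → Circle, Isometry fun x : M => φ • x)
    (hdisc : ¬ IsPreconnected {x : M | ∀ φ : Fin k → Circle, φ • x = x}) :
    {C : Set M | IsGeodesicImage C}.Infinite := by
  rcases k with _ | k
  · refine absurd ?_ hdisc
    have e : {x : M | ∀ φ : Fin 0 → Circle, φ • x = x} = univ := by
      refine eq_univ_of_forall fun x φ => ?_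
      rw [Subsingleton.elim φ 1, one_smul]
    rw [e]
    exact isPreconnected_univ
  refine infinite_geodesics hM hr hiso (gen k) ?_ ?_ hdisc
  · intro n x hx
    rw [smul_smul]
    have e : gen k n * gen k n = Pi.mulSingle ⟨n % (k + 1), Nat.mod_lt n k.succ_pos⟩
        (Circle.exp (2 * Real.pi / 2 ^ (n / (k + 1)))) := by
      rw [gen, ← Pi.mulSingle_mul, ← Circle.exp_add]
      congr 2
      rw [pow_succ]
      field_simp
      ring
    rw [e]
    rcases lt_or_ge n (k + 1) with hn | hn
    · rw [Nat.div_eq_of_lt hn, pow_zero, div_one, Circle.exp_two_pi, Pi.mulSingle_one, one_smul]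
    · have h := hx (n - (k + 1)) (by omega)
      rwa [gen, show (n - (k + 1)) / (k + 1) + 1 = n / (k + 1) from
          (Nat.div_eq_sub_div k.succ_pos hn).symm,
        show (⟨(n - (k + 1)) % (k + 1), Nat.mod_lt _ k.succ_pos⟩ : Fin (k + 1)) =
          ⟨n % (k + 1), Nat.mod_lt n k.succ_pos⟩ from Fin.ext (Nat.mod_eq_sub_mod hn).symm] at h
  · intro x hx φ
    set S := MulAction.stabilizer (Fin (k + 1) → Circle) x
    have hsingle : ∀ (i : Fin (k + 1)) (z : Circle), Pi.mulSingle i z ∈ S := by
      intro i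
      refine circle_mem_of_dyadic (Z := {z | Pi.mulSingle i z ∈ S}) ?_ ?_ ?_ ?_ ?_
      · refine IsClosed.preimage
          (continuous_mulSingle (A := fun _ : Fin (k + 1) => Circle) i) ?_
        exact isClosed_eq (continuous_id.smul continuous_const) continuous_const
      · simp [S]
      · intro a ha b hb
        simpa [Pi.mulSingle_mul] using S.mul_mem ha hb
      · intro a ha
        simpa [Pi.mulSingle_inv] using S.inv_mem ha
      · intro j
        rcases j with _ | j
        · simp [S]
        · have h := hx ((k + 1) * j + i.val)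
          rw [gen] at h
          simp only [Nat.mul_add_mod, Nat.mod_eq_of_lt i.2,
            Nat.mul_add_div k.succ_pos, Nat.div_eq_of_lt i.2, add_zero] at h
          exact h
    rw [← Finset.univ_prod_mulSingle φ]
    exact prod_mem fun i _ => hsingle i (φ i)

end Vale.Agent.P216
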