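import Vale.Agent.P216.Glue
import Vale.Agent.P216.Torus

/-!
# Infinitely many closed geodesics for circle actions with a fixed point
-/

namespace Vale.Agent.P216

open Filter Topology Set Function

variable {M : Type*} [MetricSpace M] [CompactSpace M] {r : ℝ}

/-- Nearby points have at most one reflection: `x` and a midpoint determine the other end. -/
def UniqueExt (M : Type*) [MetricSpace M] (r : ℝ) : Prop :=
  ∀ x m y y' : M, dist x y < r → dist x y' < r → IsMid x y m → IsMid x y' m → y = y'

theorem chord_geodesic (hM : UniqueMid M r) {g : M → M} (hg : Isometry g) {δ : ℝ} {k : ℕ}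
    {w : ℕ → M} (h : IsChord g {a | g a = a} {a | g a = a} r δ k w) :
    IsGeodesicImage (range (chainCurve (loopZ g w k))) ∧
      Periodic (chainCurve (loopZ g w k)) ((2 * k : ℕ) : ℝ) ∧
      Continuous (chainCurve (loopZ g w k)) ∧
      (∀ s u : ℝ, |s - u| ≤ 1 →
        dist (chainCurve (loopZ g w k) s) (chainCurve (loopZ g w k) u) = δ * |s - u|) ∧
      chainCurve (loopZ g w k) 0 = w 0 ∧ chainCurve (loopZ g w k) 1 = w 1 := by
  have hfix : ∀ x, g x = x ↔ x ∈ {a | g a = a} ∪ {a | g a = a} := fun x => by simp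
  have hk := h.two_le
  have hδ := h.pos
  have hlt : δ < r := by linarith [h.lt]
  have hadd := loopZ_add h hfix
  have h1 : ∀ i, dist (loopZ g w k i) (loopZ g w k (i + 1)) = δ := by
    intro i
    obtain ⟨j, hj, hh⟩ := hadd i
    have e0 := hh 0 (by omega)
    have e1 := hh 1 (by omega)
    simp only [Nat.cast_zero, add_zero, Nat.cast_one] at e0 e1
    rw [e0, e1]
    exact dist_wrap_one h hfix hg hj
  have h2 : ∀ i, dist (loopZ g w k i) (loopZ g w k (i + 2)) = 2 * δ := by
    intro i
    obtain ⟨j, hj, hh⟩ := hadd i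
    have e0 := hh 0 (by omega)
    have e2 := hh 2 le_rfl
    simp only [Nat.cast_zero, add_zero, Nat.cast_ofNat] at e0 e2
    rw [e0, e2]
    exact dist_wrap_two h hfix hg hj
  have hper : ∀ i, loopZ g w k (i + (2 * k : ℕ)) = loopZ g w k i := fun i => by
    simp only [loopZ, Int.add_emod_right]
  refine ⟨isGeodesicImage_chain hM hδ hlt (by omega) hper h1 h2, chainCurve_periodic hper,
    continuous_chainCurve hM hlt h1 h2, fun s u => dist_chainCurve hM hlt h1 h2, ?_, ?_⟩
  · rw [chainCurve, Int.floor_zero, Int.fract_zero, seg_zero hM (by rw [h1]; exact hlt)]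
    simp [loopZ, wrap]
  · rw [chainCurve, Int.floor_one, Int.fract_one, seg_zero hM (by rw [h1]; exact hlt), loopZ,
      Int.emod_eq_of_lt zero_le_one (by exact_mod_cast (show 1 < 2 * k by omega))]
    exact wrap_low (by omega)

omit [CompactSpace M] in
theorem finite_fixed_times (hM : UniqueMid M r) (hext : UniqueExt M r) {g : M → M}
    (hg : Isometry g) {c : ℝ → M} {p δ : ℝ} (hp : 0 < p) (hc : Periodic c p) (hcont : Continuous c)
    (hδ : 0 < δ) (hδr : 2 * δ < r) (hd : ∀ s u, |s - u| ≤ 1 → dist (c s) (c u) = δ * |s - u|)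
    {t₁ : ℝ} (ht₁ : g (c t₁) ≠ c t₁) : {s ∈ Icc 0 p | g (c s) = c s}.Finite := by
  set S : Set ℝ := {s | g (c s) = c s} with hS
  have hSc : IsClosed S := isClosed_eq (hg.continuous.comp hcont) hcont
  have hsep : ∀ s u, s ∈ S → u ∈ S → s < u → 1 / 2 < u - s := by
    intro s u hs hu hsu
    by_contra hle
    -- dyadic subdivision of the interval
    set h := u - s with hh
    have hmid : ∀ a b : ℝ, a ≤ b → b ≤ a + 1 →
        IsMid (c a) (c b) (c ((a + b) / 2)) ∧ dist (c a) (c b) < r := by
      intro a b hab hb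
      have h1 : |a - b| = b - a := by rw [abs_sub_comm, abs_of_nonneg (by linarith)]
      have h2 : |a - (a + b) / 2| = (b - a) / 2 := by
        rw [abs_sub_comm, abs_of_nonneg (by linarith)]; ring
      have h3 : |(a + b) / 2 - b| = (b - a) / 2 := by
        rw [abs_sub_comm, abs_of_nonneg (by linarith)]; ring
      refine ⟨⟨?_, ?_⟩, ?_⟩
      · rw [hd a b (by linarith), hd a _ (by linarith), h1, h2]; ring
      · rw [hd a b (by linarith), hd _ b (by linarith), h1, h3]; ring
      · rw [hd a b (by linarith), h1]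
        nlinarith
    have hhalf : ∀ a b, a ≤ b → b ≤ a + 1 → a ∈ S → b ∈ S → (a + b) / 2 ∈ S := by
      intro a b hab hb ha hb'
      obtain ⟨hm, hlt⟩ := hmid a b hab hb
      have h1 := hm.map hg
      rw [show g (c a) = c a from ha, show g (c b) = c b from hb'] at h1
      exact (hM _ _ hlt).unique h1 hm
    have hrefl : ∀ a e : ℝ, 0 ≤ e → e ≤ 1 / 2 → a ∈ S → a + e ∈ S → a + 2 * e ∈ S := by
      intro a e he he' ha hb
      obtain ⟨hm, hlt⟩ := hmid a (a + 2 * e) (by linarith) (by linarith)
      rw [show (a + (a + 2 * e)) / 2 = a + e by ring] at hm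
      have h1 := hm.map hg
      rw [show g (c a) = c a from ha, show g (c (a + e)) = c (a + e) from hb] at h1
      refine hext (c a) (c (a + e)) _ _ ?_ hlt h1 hm
      calc dist (c a) (g (c (a + 2 * e))) = dist (g (c a)) (g (c (a + 2 * e))) := by
            rw [show g (c a) = c a from ha]
        _ = dist (c a) (c (a + 2 * e)) := hg.dist_eq _ _
        _ < r := hlt
    have hline : ∀ m : ℕ, ∀ j : ℕ, s + j * (h / 2 ^ m) ∈ S := by
      intro m
      induction m with
      | zero =>
        intro j
        suffices ∀ j : ℕ, s + j * (h / 2 ^ 0) ∈ S ∧ s + (j + 1 : ℕ) * (h / 2 ^ 0) ∈ S from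
          (this j).1
        intro j
        induction j with
        | zero => simp only [pow_zero, div_one]; norm_num; exact ⟨hs, by rw [hh]; simpa using hu⟩
        | succ j ih =>
          refine ⟨ih.2, ?_⟩
          have h1 := hrefl (s + j * (h / 2 ^ 0)) (h / 2 ^ 0) (by simp; linarith)
            (by simp; linarith) ih.1 (by convert ih.2 using 1; push_cast; ring)
          convert h1 using 1
          push_cast
          ring
      | succ m ih =>
        intro j
        obtain ⟨i, rfl | rfl⟩ := Nat.even_or_odd' j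
        · convert ih i using 1
          push_cast
          rw [pow_succ]
          field_simp
        · have hh0 : 0 ≤ h / 2 ^ m := by positivity
          have hh1 : h / 2 ^ m ≤ 1 :=
            (div_le_self (by linarith) (one_le_pow₀ one_le_two)).trans (by linarith)
          have h1 := hhalf (s + i * (h / 2 ^ m)) (s + (i + 1 : ℕ) * (h / 2 ^ m))
            (by push_cast; linarith) (by push_cast; linarith) (ih i) (ih (i + 1))
          convert h1 using 1
          push_cast
          rw [pow_succ]
          field_simp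
          ring
    have hge : ∀ t, s ≤ t → t ∈ S := by
      intro t ht
      have hh0 : 0 < h := by linarith
      have hlim : Tendsto (fun m : ℕ => s + (⌊(t - s) / h * 2 ^ m⌋₊ : ℝ) * (h / 2 ^ m)) atTop
          (𝓝 t) := by
        have := ((tendsto_dix (t := (t - s) / h) (by positivity)).mul_const h).const_add s
        rw [div_mul_cancel₀ _ hh0.ne', add_sub_cancel] at this
        refine this.congr fun m => ?_
        simp only [dix]
        ring
      exact hSc.mem_of_tendsto hlim (Eventually.of_forall fun m => hline m _)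
    obtain ⟨n, hn⟩ := exists_nat_gt ((s - t₁) / p)
    rw [div_lt_iff₀ hp] at hn
    have h1 : g (c (t₁ + n * p)) = c (t₁ + n * p) := hge _ (by linarith)
    rw [hc.nat_mul n t₁] at h1
    exact ht₁ h1
  refine Set.Finite.of_finite_image (f := fun s : ℝ => ⌊2 * s⌋) ?_ ?_
  · refine (Set.finite_Icc (0 : ℤ) ⌊2 * p⌋).subset ?_
    rintro _ ⟨s, ⟨hs, -⟩, rfl⟩
    exact ⟨Int.floor_nonneg.2 (by linarith [hs.1]), Int.floor_le_floor (by linarith [hs.2])⟩
  · rintro s ⟨-, hs⟩ u ⟨-, hu⟩ e
    have := Int.abs_sub_lt_one_of_floor_eq_floor e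
    rw [abs_lt] at this
    rcases lt_trichotomy s u with h | h | h
    · linarith [hsep s u hs hu h]
    · exact h
    · linarith [hsep u s hu hs h]

omit [CompactSpace M] in
/-- On a geodesic, the fixed set of an isometry is convex for short intervals. -/
theorem fixed_interval (hM : UniqueMid M r) {g : M → M} (hg : Isometry g) {c : ℝ → M} {δ : ℝ}
    (hd : ∀ s u, |s - u| ≤ 1 → dist (c s) (c u) = δ * |s - u|) (hδr : δ < r) (hδ : 0 < δ)
    {e : ℝ} (he : 0 ≤ e) (he' : e ≤ 1) (h0 : g (c 0) = c 0) (h1 : g (c e) = c e) :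
    ∀ s ∈ Icc 0 e, g (c s) = c s := by
  have hcont : Continuous c := continuous_iff_continuousAt.2 fun t =>
    Metric.continuousAt_iff.2 fun η hη => ⟨min 1 (η / δ), lt_min one_pos (by positivity),
      fun s hs => by
        rw [Real.dist_eq, lt_min_iff] at hs
        rw [hd s t hs.1.le, mul_comm]
        exact (lt_div_iff₀ hδ).1 hs.2⟩
  have key : ∀ m : ℕ, ∀ j : ℕ, j ≤ 2 ^ m → g (c (j * (e / 2 ^ m))) = c (j * (e / 2 ^ m)) := by
    intro m
    induction m with
    | zero =>
      intro j hj
      simp only [pow_zero, Nat.le_one_iff_eq_zero_or_eq_one] at hj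
      rcases hj with rfl | rfl <;> simpa
    | succ m ih =>
      intro j hj
      rw [pow_succ] at hj
      obtain ⟨i, rfl | rfl⟩ := Nat.even_or_odd' j
      · have e1 : ((2 * i : ℕ) : ℝ) * (e / 2 ^ (m + 1)) = i * (e / 2 ^ m) := by
          rw [pow_succ]; push_cast; field_simp
        rw [e1]
        exact ih i (by omega)
      · set f := e / 2 ^ m with hf
        have hf0 : 0 ≤ f := by positivity
        have hf1 : f ≤ 1 := (div_le_self he (one_le_pow₀ one_le_two)).trans he'
        have d1 := hd ((i : ℝ) * f) ((i + 1 : ℕ) * f) (by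
          push_cast; rw [abs_le]; constructor <;> linarith)
        have d2 := hd ((i : ℝ) * f) ((i : ℝ) * f + f / 2) (by
          rw [abs_le]; constructor <;> linarith)
        have d3 := hd ((i : ℝ) * f + f / 2) ((i + 1 : ℕ) * f) (by
          push_cast; rw [abs_le]; constructor <;> linarith)
        push_cast at d1 d2 d3
        rw [abs_sub_comm, abs_of_nonneg (by linarith)] at d1 d2 d3
        have hm : IsMid (c (i * f)) (c ((i + 1) * f)) (c (i * f + f / 2)) := by
          constructor
          · rw [d1, d2]; ring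
          · rw [d1, d3]; ring
        have hlt : dist (c (i * f)) (c ((i + 1) * f)) < r := by rw [d1]; nlinarith
        have h2 := hm.map hg
        have a1 := ih i (by omega)
        have a2 := ih (i + 1) (by omega)
        push_cast at a2
        rw [a1, a2] at h2
        have h3 := (hM _ _ hlt).unique h2 hm
        have e2 : ((2 * i + 1 : ℕ) : ℝ) * (e / 2 ^ (m + 1)) = i * f + f / 2 := by
          rw [hf, pow_succ]; push_cast; field_simp
        rwa [e2]
  intro s hs
  rcases eq_or_lt_of_le he with rfl | hepos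
  · rwa [show s = 0 from le_antisymm hs.2 hs.1]
  have hlim := ((tendsto_dix (t := s / e) (div_nonneg hs.1 he)).mul_const e)
  rw [div_mul_cancel₀ _ hepos.ne'] at hlim
  refine (isClosed_eq (hg.continuous.comp hcont) hcont).mem_of_tendsto hlim
    (Eventually.of_forall fun m => ?_)
  show g (c _) = c _
  rw [show (dix (s / e) m : ℝ) / 2 ^ m * e = dix (s / e) m * (e / 2 ^ m) by ring]
  exact key m (dix (s / e) m) (dix_le ((div_le_one hepos).2 hs.2) m)

variable {G : Type*} [Group G] [TopologicalSpace G] [IsTopologicalGroup G] [ConnectedSpace G]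
  [MulAction G M] [ContinuousSMul G M]

theorem infinite_geodesics_involution [ConnectedSpace M] (hM : UniqueMid M r)
    (hext : UniqueExt M r) (hr : 0 < r) (hiso : ∀ φ : G, Isometry fun x : M => φ • x)
    (hsurj : ∀ f : C(M, M), (ContinuousMap.id M).Homotopic f → Surjective f)
    (z : G) (hz : ∀ φ : G, ∀ x : M, z • φ • x = φ • z • x) (hzz : ∀ x : M, z • z • x = x)
    {a₀ b₀ : M} (ha₀ : z • a₀ = a₀) (hb₀ : z • b₀ ≠ b₀) :
    {C : Set M | IsGeodesicImage C}.Infinite := by
  obtain ⟨δ, k, w, h⟩ := exists_chord_of_surjective hM (hiso z) hzz hr ha₀ hb₀ hsurj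
  obtain ⟨hgeo, hper, hcont, hd, h0, h1⟩ := chord_geodesic hM (hiso z) h
  set c := chainCurve (loopZ (fun x : M => z • x) w k) with hc
  set P : ℝ := ((2 * k : ℕ) : ℝ) with hPdef
  have hP : 0 < P := by
    have := h.two_le
    rw [hPdef]
    exact_mod_cast (show 0 < 2 * k by omega)
  have hδ := h.pos
  have hw1 : z • w 1 ≠ w 1 := by
    intro e
    have h2 := h.end_left
    rw [e, dist_self] at h2
    linarith
  have hS := finite_fixed_times hM hext (hiso z) hP hper hcont hδ (by linarith [h.lt]) hd
    (t₁ := 1) (by rw [h1]; exact hw1)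
  have hrange : ∀ {y}, y ∈ range c → ∃ s ∈ Icc 0 P, c s = y := by
    rintro _ ⟨s, rfl⟩
    obtain ⟨u, hu, e⟩ := hper.exists_mem_Ico₀ hP s
    exact ⟨u, Ico_subset_Icc_self hu, e.symm⟩
  intro hfinite
  have hfimg : (range fun φ : G => (φ • ·) '' range c).Finite :=
    hfinite.subset (range_subset_iff.2 fun φ => hgeo.image (hiso φ))
  have hinv : ∀ (φ : G) (y : M), y ∈ range c → φ • y ∈ range c := fun φ y hy =>
    smul_mem_of_finite_images (range c) hgeo.isClosed hfimg φ hy
  set a : M := c 0 with ha
  have haz : z • a = a := by rw [h0]; exact h.left_mem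
  -- the end of the chord is fixed by the whole group
  have hafix : ∀ φ : G, φ • a = a := by
    intro φ
    have hcont' : Continuous fun ψ : G => ψ • a := continuous_id.smul continuous_const
    have hsub : (range fun ψ : G => ψ • a).Subsingleton := by
      refine not_nontrivial_iff.1 fun hnt =>
        (isPreconnected_range hcont').infinite_of_nontrivial hnt ?_
      refine (hS.image c).subset ?_
      rintro _ ⟨ψ, rfl⟩
      obtain ⟨s, hs, e⟩ := hrange (hinv ψ a ⟨0, rfl⟩)
      exact ⟨s, ⟨hs, show z • c s = c s by rw [e, hz ψ a, haz]⟩, e⟩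
    exact (hsub (mem_range_self φ) (mem_range_self 1)).trans (one_smul G a)
  -- a small distance from the end
  set Q : Set ℝ := {s ∈ Icc 0 P | c s = a} with hQdef
  have hQ : Q.Finite := hS.subset fun s hs => ⟨hs.1, show z • c s = c s by rw [hs.2, haz]⟩
  set Y : Set ℝ := Icc 0 P \ ⋃ q ∈ Q, Metric.ball q (1 / 2) with hY
  have hYc : IsCompact Y :=
    IsCompact.diff isCompact_Icc (isOpen_biUnion fun q _ => Metric.isOpen_ball)
  obtain ⟨ε, hε, hfar⟩ : ∃ ε > 0, ∀ s ∈ Y, ε ≤ dist a (c s) := by
    rcases Y.eq_empty_or_nonempty with he | hne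
    · exact ⟨1, one_pos, by simp [he]⟩
    obtain ⟨s₀, hs₀, hmin⟩ := hYc.exists_isMinOn hne
      (continuous_const.dist hcont : Continuous fun s => dist a (c s)).continuousOn
    refine ⟨dist a (c s₀), dist_pos.2 fun e => hs₀.2 ?_, fun s hs => isMinOn_iff.1 hmin s hs⟩
    exact mem_biUnion (show s₀ ∈ Q from ⟨hs₀.1, e.symm⟩) (Metric.mem_ball_self (by norm_num))
  set τ := min (1 / 4) (ε / (2 * δ)) with hτ
  have hτ0 : 0 < τ := lt_min (by norm_num) (by positivity)
  have hτ4 : τ ≤ 1 / 4 := min_le_left _ _
  have hτε : δ * τ < ε := by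
    have : τ ≤ ε / (2 * δ) := min_le_right _ _
    rw [le_div_iff₀ (by positivity)] at this
    nlinarith
  -- the nearby point moved by `z`
  have hpz : z • c τ ≠ c τ := by
    intro e
    have h0τ := hd 0 τ (by rw [abs_sub_comm, sub_zero, abs_of_pos hτ0]; linarith)
    have h0S : (0 : ℝ) ∈ {s ∈ Icc 0 P | z • c s = c s} := ⟨left_mem_Icc.2 hP.le, haz⟩
    have hfix := fixed_interval hM (hiso z) hd (by linarith [h.lt]) hδ hτ0.le (by linarith)
      (show z • c 0 = c 0 from haz) e
    have hτP : τ ≤ P := by
      have := h.two_le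
      have : (1 : ℝ) ≤ P := by rw [hPdef]; exact_mod_cast (show 1 ≤ 2 * k by omega)
      linarith
    exact absurd hS ((Icc_infinite hτ0).mono fun s hs =>
      ⟨⟨hs.1, hs.2.trans hτP⟩, hfix s hs⟩)
  have hdτ : dist a (c τ) = δ * τ := by
    rw [ha, hd 0 τ (by rw [abs_sub_comm, sub_zero, abs_of_pos hτ0]; linarith), abs_sub_comm,
      sub_zero, abs_of_pos hτ0]
  have hcont' : Continuous fun ψ : G => ψ • c τ := continuous_id.smul continuous_const
  have hsub : (range fun ψ : G => ψ • c τ).Subsingleton := by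
    refine not_nontrivial_iff.1 fun hnt =>
      (isPreconnected_range hcont').infinite_of_nontrivial hnt ?_
    refine (((hQ.image fun q => q + τ).union (hQ.image fun q => q - τ)).image c).subset ?_
    rintro _ ⟨ψ, rfl⟩
    obtain ⟨s, hs, e⟩ := hrange (hinv ψ _ ⟨τ, rfl⟩)
    have hdist : dist a (c s) = δ * τ := by
      rw [e, ← hdτ]
      conv_lhs => rw [← hafix ψ]
      exact (hiso ψ).dist_eq _ _
    obtain ⟨q, hq, hqs⟩ : ∃ q ∈ Q, s ∈ Metric.ball q (1 / 2) := by
      by_contra hcon
      push Not at hcon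
      have := hfar s ⟨hs, by simpa using hcon⟩
      linarith
    rw [Metric.mem_ball, Real.dist_eq] at hqs
    rw [← hq.2, hd q s (by rw [abs_sub_comm]; linarith), abs_sub_comm] at hdist
    have := mul_left_cancel₀ hδ.ne' hdist
    refine ⟨s, ?_, e⟩
    rcases abs_eq hτ0.le |>.1 this with h' | h'
    · exact Or.inl ⟨q, hq, by linarith⟩
    · exact Or.inr ⟨q, hq, by linarith⟩
  exact hpz ((hsub (mem_range_self z) (mem_range_self 1)).trans (one_smul G _))

end Vale.Agent.P216
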