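import Vale.Agent.P216.Midpoint

/-!
# Paths and closed geodesics in metric spaces with unique local midpoints
-/

namespace Vale.Agent.P216

open Filter Topology Set Function

variable {M : Type*} [MetricSpace M]

/-- There is a path of length at most `ℓ` from `x` to `y`, parametrised by a one-Lipschitz map. -/
def Reach (x y : M) (ℓ : ℝ) : Prop :=
  0 ≤ ℓ ∧ ∃ f : ℝ → M, LipschitzWith 1 f ∧ f 0 = x ∧ f ℓ = y

theorem Reach.refl (x : M) : Reach x x 0 :=
  ⟨le_rfl, fun _ => x, LipschitzWith.const' x, rfl, rfl⟩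

theorem Reach.trans {x y z : M} {a b : ℝ} (h : Reach x y a) (h' : Reach y z b) :
    Reach x z (a + b) := by
  obtain ⟨ha, f, hf, hf0, hf1⟩ := h
  obtain ⟨hb, g, hg, hg0, hg1⟩ := h'
  refine ⟨by positivity, fun s => if s ≤ a then f s else g (s - a), ?_, by simp [ha, hf0], ?_⟩
  · refine LipschitzWith.of_dist_le' (K := 1) ?_ |>.weaken (by simp)
    intro s t
    have hf' : ∀ s t, dist (f s) (f t) ≤ |s - t| := fun s t => by
      simpa [Real.dist_eq] using hf.dist_le_mul s t
    have hg' : ∀ s t, dist (g s) (g t) ≤ |s - t| := fun s t => by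
      simpa [Real.dist_eq] using hg.dist_le_mul s t
    rw [one_mul, Real.dist_eq]
    split_ifs with h1 h2 h2
    · exact hf' s t
    · refine (dist_triangle _ (f a) _).trans ?_
      rw [hf1, ← hg0]
      have e1 := hf' s a
      have e2 := hg' 0 (t - a)
      rw [hf1, ← hg0] at e1
      rw [abs_of_nonpos (by linarith)] at e1
      rw [abs_of_nonpos (by linarith)] at e2
      rw [abs_of_nonpos (by linarith)]
      linarith
    · refine (dist_triangle _ (g 0) _).trans ?_
      have e1 := hf' a t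
      have e2 := hg' (s - a) 0
      rw [hf1, ← hg0] at e1
      rw [abs_of_nonneg (by linarith)] at e1
      rw [abs_of_nonneg (by linarith)] at e2
      rw [abs_of_nonneg (by linarith)]
      linarith
    · simpa using hg' (s - a) (t - a)
  · simp only
    split_ifs with h1
    · obtain rfl : b = 0 := by linarith
      rw [add_zero, hf1, ← hg0, hg1]
    · rw [add_sub_cancel_left, hg1]

variable [CompleteSpace M] {r : ℝ}

theorem reach_of_dist (hM : UniqueMid M r) {x y : M} (h : dist x y < r) :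
    Reach x y (dist x y) := by
  rcases eq_or_ne (dist x y) 0 with h0 | h0
  · rw [h0]
    obtain rfl := dist_eq_zero.1 h0
    exact Reach.refl x
  refine ⟨dist_nonneg, fun s => seg x y (s / dist x y), ?_, by simp [seg_zero hM h],
    by simp [h0, seg_one hM h]⟩
  refine LipschitzWith.of_dist_le' (K := 1) (fun s t => ?_) |>.weaken (by simp)
  refine (dist_seg_le hM h _ _).trans (le_of_eq ?_)
  rw [one_mul, Real.dist_eq, ← sub_div, abs_div, abs_of_pos (lt_of_le_of_ne dist_nonneg (Ne.symm h0)),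
    div_mul_cancel₀ _ h0]

theorem exists_reach (hM : UniqueMid M r) (hr : 0 < r) {a b : M} (h : b ∈ connectedComponent a) :
    ∃ ℓ, Reach a b ℓ := by
  set S : Set M := {y | ∃ ℓ, Reach a y ℓ}
  have hstep : ∀ y ∈ S, ∀ z, dist y z < r → z ∈ S := fun y ⟨ℓ, hℓ⟩ z hz =>
    ⟨_, hℓ.trans (reach_of_dist hM hz)⟩
  have ho : IsOpen S := Metric.isOpen_iff.2 fun y hy => ⟨r, hr, fun z hz =>
    hstep y hy z (by rwa [dist_comm])⟩
  have hc : IsClosed S := by
    refine isClosed_of_closure_subset fun z hz => ?_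
    obtain ⟨y, hy, hyz⟩ := Metric.mem_closure_iff.1 hz r hr
    exact hstep y hy z (by rwa [dist_comm])
  exact (IsClopen.connectedComponent_subset ⟨hc, ho⟩ ⟨0, Reach.refl a⟩) h

/-- The range of a nonconstant closed geodesic: a periodic curve of constant positive speed which
realises the distance near every time. -/
def IsGeodesicImage (C : Set M) : Prop :=
  ∃ (c : ℝ → M) (τ v : ℝ), 0 < τ ∧ 0 < v ∧ Periodic c τ ∧
    (∀ t : ℝ, ∃ ε > 0, ∀ s u : ℝ, |s - t| < ε → |u - t| < ε → dist (c s) (c u) = v * |s - u|) ∧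
    range c = C

omit [CompleteSpace M] in
theorem IsGeodesicImage.isClosed {C : Set M} (h : IsGeodesicImage C) : IsClosed C := by
  obtain ⟨c, τ, v, hτ, hv, hp, hloc, rfl⟩ := h
  refine (hp.compact_of_continuous hτ.ne' ?_).isClosed
  refine continuous_iff_continuousAt.2 fun t => ?_
  obtain ⟨ε, hε, h⟩ := hloc t
  refine Metric.continuousAt_iff.2 fun η hη => ⟨min ε (η / v), lt_min hε (div_pos hη hv), ?_⟩
  intro s hs
  rw [Real.dist_eq, lt_min_iff] at hs
  rw [h s t hs.1 (by simpa using hε)]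
  rw [mul_comm]
  exact (lt_div_iff₀ hv).1 hs.2

omit [CompleteSpace M] in
theorem IsGeodesicImage.image {C : Set M} (h : IsGeodesicImage C) {N : Type*} [MetricSpace N]
    {f : M → N} (hf : Isometry f) : IsGeodesicImage (f '' C) := by
  obtain ⟨c, τ, v, hτ, hv, hp, hloc, rfl⟩ := h
  refine ⟨f ∘ c, τ, v, hτ, hv, hp.comp f, fun t => ?_, range_comp f c⟩
  obtain ⟨ε, hε, h⟩ := hloc t
  exact ⟨ε, hε, fun s u hs hu => (hf.dist_eq _ _).trans (h s u hs hu)⟩

/-- The curve through a chain of points. -/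
noncomputable def chainCurve (z : ℤ → M) (s : ℝ) : M := seg (z ⌊s⌋) (z (⌊s⌋ + 1)) (Int.fract s)

theorem dist_chainCurve (hM : UniqueMid M r) {z : ℤ → M} {δ : ℝ} (hδr : δ < r)
    (h1 : ∀ i, dist (z i) (z (i + 1)) = δ) (h2 : ∀ i, dist (z i) (z (i + 2)) = 2 * δ) {s u : ℝ}
    (hsu' : |s - u| ≤ 1) : dist (chainCurve z s) (chainCurve z u) = δ * |s - u| := by
  have hlt : ∀ i, dist (z i) (z (i + 1)) < r := fun i => by rw [h1]; exact hδr
  have hat : ∀ (i : ℤ) (s : ℝ), (i : ℝ) ≤ s → s ≤ i + 1 →
      chainCurve z s = seg (z i) (z (i + 1)) (s - i) := by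
    intro i s hs hs'
    rcases eq_or_lt_of_le hs' with rfl | hlt'
    · have e : ⌊((i : ℝ) + 1)⌋ = i + 1 := by simp
      rw [chainCurve, Int.fract, e]
      push_cast
      rw [sub_self, add_sub_cancel_left, seg_zero hM (hlt _), seg_one hM (hlt _)]
    · have e : ⌊s⌋ = i := Int.floor_eq_iff.2 ⟨hs, hlt'⟩
      rw [chainCurve, Int.fract, e]
  have key : ∀ s u : ℝ, s ≤ u → u ≤ s + 1 →
      dist (chainCurve z s) (chainCurve z u) = δ * |s - u| := by
    intro s u hsu hus
    rw [abs_sub_comm, abs_of_nonneg (sub_nonneg.2 hsu)]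
    set i := ⌊s⌋
    have hi : (i : ℝ) ≤ s := Int.floor_le s
    have hi' : s < i + 1 := Int.lt_floor_add_one s
    rw [hat i s hi hi'.le]
    rcases le_total u (i + 1) with hu | hu
    · rw [hat i u (hi.trans hsu) hu, dist_seg hM (hlt i) (by linarith) (by linarith) (by linarith),
        h1]
      ring
    · rw [hat (i + 1) u (by push_cast; linarith) (by push_cast; linarith)]
      push_cast
      have a1 := dist_seg_left hM (hlt i) (t := s - i) (by linarith) (by linarith)
      have a2 := dist_seg_right hM (hlt i) (t := s - i) (by linarith) (by linarith)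
      have b1 := dist_seg_left hM (hlt (i + 1)) (t := u - (i + 1)) (by linarith) (by linarith)
      have b2 := dist_seg_right hM (hlt (i + 1)) (t := u - (i + 1)) (by linarith) (by linarith)
      rw [h1] at a1 a2 b1 b2
      have c := h2 i
      rw [show i + 2 = i + 1 + 1 from by ring] at c
      set P := seg (z i) (z (i + 1)) (s - i)
      set Q := seg (z (i + 1)) (z (i + 1 + 1)) (u - (i + 1))
      linarith [dist_triangle P (z (i + 1)) Q, dist_triangle4 (z i) P Q (z (i + 1 + 1))]
  rw [abs_le] at hsu'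
  rcases le_total s u with hsu | hsu
  · exact key s u hsu (by linarith)
  · rw [dist_comm, abs_sub_comm]
    exact key u s hsu (by linarith)

omit [CompleteSpace M] in
theorem chainCurve_periodic {z : ℤ → M} {p : ℕ} (hper : ∀ i, z (i + p) = z i) :
    Periodic (chainCurve z) p := by
  intro s
  have hf : Int.fract (s + (p : ℝ)) = Int.fract s := Int.fract_add_natCast s p
  have hz : ⌊s + (p : ℝ)⌋ = ⌊s⌋ + p := Int.floor_add_natCast s p
  rw [chainCurve, chainCurve, hf, hz, hper, add_right_comm, hper]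

theorem continuous_chainCurve (hM : UniqueMid M r) {z : ℤ → M} {δ : ℝ} (hδr : δ < r)
    (h1 : ∀ i, dist (z i) (z (i + 1)) = δ) (h2 : ∀ i, dist (z i) (z (i + 2)) = 2 * δ) :
    Continuous (chainCurve z) := by
  refine continuous_iff_continuousAt.2 fun t => Metric.continuousAt_iff.2 fun η hη => ?_
  refine ⟨min 1 (η / (|δ| + 1)), lt_min one_pos (by positivity), fun s hs => ?_⟩
  rw [Real.dist_eq, lt_min_iff] at hs
  rw [dist_chainCurve hM hδr h1 h2 hs.1.le]
  have h := (lt_div_iff₀ (show 0 < |δ| + 1 by positivity)).1 hs.2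
  nlinarith [abs_nonneg (s - t), le_abs_self δ]

theorem isGeodesicImage_chain (hM : UniqueMid M r) {z : ℤ → M} {δ : ℝ} {p : ℕ} (hδ : 0 < δ)
    (hδr : δ < r) (hp : 0 < p) (hper : ∀ i, z (i + p) = z i)
    (h1 : ∀ i, dist (z i) (z (i + 1)) = δ) (h2 : ∀ i, dist (z i) (z (i + 2)) = 2 * δ) :
    IsGeodesicImage (range (chainCurve z)) := by
  refine ⟨chainCurve z, p, δ, by exact_mod_cast hp, hδ, chainCurve_periodic hper,
    fun t => ⟨1 / 2, by norm_num, fun s u hs hu => ?_⟩, rfl⟩
  rw [abs_lt] at hs hu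
  exact dist_chainCurve hM hδr h1 h2 (abs_le.2 ⟨by linarith, by linarith⟩)

end Vale.Agent.P216
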