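import Vale.Agent.P216.Shorten

/-!
# Without orthogonal chords the identity deforms into the fixed set
-/

namespace Vale.Agent.P216

open Filter Topology Set Function

variable {M : Type*} [MetricSpace M] [CompactSpace M] {r : ℝ} {g : M → M}

/-- `K` can be deformed in `M` into the fixed set of `g`. -/
def Deformable (g : M → M) (K : Set M) : Prop :=
  ∃ H : M × ℝ → M, ContinuousOn H (K ×ˢ univ) ∧
    ∀ x ∈ K, H (x, 0) = x ∧ g (H (x, 1)) = H (x, 1)

omit [CompactSpace M] in
theorem Deformable.mono {K L : Set M} (h : Deformable g L) (hKL : K ⊆ L) : Deformable g K := by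
  obtain ⟨H, hc, hH⟩ := h
  exact ⟨H, hc.mono (prod_mono hKL Subset.rfl), fun x hx => hH x (hKL hx)⟩

variable (hM : UniqueMid M r) (hg : Isometry g) (hgg : ∀ a, g (g a) = a) (hr : 0 < r)
  (hno : ∀ δ k w, ¬ IsChord g {a | g a = a} {a | g a = a} r δ k w)

include hM hg hgg hr hno in
theorem compressible_all {P : Type*} [MetricSpace P] [CompactSpace P] {γ : P × ℝ → M}
    (hγ : Continuous γ) (h0 : ∀ p, g (γ (p, 0)) = γ (p, 0))
    (h1 : ∀ p, g (γ (p, 1)) = γ (p, 1)) : Compressible g γ := by
  have huc : UniformContinuousOn γ ((univ : Set P) ×ˢ Icc (0 : ℝ) 1) :=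
    (isCompact_univ.prod isCompact_Icc).uniformContinuousOn_of_continuous hγ.continuousOn
  set η := r / 8 with hη
  obtain ⟨d, hd, hclose⟩ := Metric.uniformContinuousOn_iff.1 huc η (by positivity)
  obtain ⟨k, hk⟩ := exists_nat_gt (1 / d)
  have hk0 : 0 < k := by
    have : (0 : ℝ) < k := (show 0 < 1 / d by positivity).trans hk
    exact_mod_cast this
  have hk' : (0 : ℝ) < k := by exact_mod_cast hk0
  have hkd : 1 / (k : ℝ) < d := by
    rw [div_lt_iff₀ hk']
    rw [div_lt_iff₀ hd] at hk
    linarith
  set f : P → ℕ → M := fun p i => γ (p, cl ((i : ℝ) / k)) with hf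
  have hfc : Continuous f := continuous_pi fun i => hγ.comp (by fun_prop)
  have hnear : ∀ p (i : ℕ) (t : ℝ), |cl t - cl ((i : ℝ) / k)| ≤ 1 / k →
      dist (γ (p, cl t)) (f p i) < η := by
    intro p i t ht
    refine hclose _ ⟨mem_univ _, cl_mem _⟩ _ ⟨mem_univ _, cl_mem _⟩ ?_
    rw [Prod.dist_eq, dist_self, max_eq_right dist_nonneg, Real.dist_eq]
    linarith
  have hcl : ∀ i ≤ k, cl ((i : ℝ) / k) = i / k := fun i hi =>
    cl_of_mem ⟨by positivity, (div_le_one hk').2 (by exact_mod_cast hi)⟩
  have hfm : ∀ p, f p ∈ chains g k η := by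
    intro p
    refine ⟨?_, ?_, fun i hi => ?_⟩
    · simpa [hf, hcl 0 k.zero_le, cl] using h0 p
    · simpa [hf, hcl k le_rfl, hk'.ne', cl] using h1 p
    · refine le_of_lt (hnear p (i + 1) ((i : ℝ) / k) ?_)
      rw [hcl i hi.le, hcl (i + 1) hi, ← sub_div, abs_div, abs_of_pos hk']
      push_cast
      simp
  have hdist : ∀ p t, dist (γ (p, cl t)) (poly k (f p) (cl t * k)) < r := by
    intro p t
    have key : ∀ n ≤ k, ∀ s : ℝ, 0 ≤ s → s ≤ n → n = 0 ∨ ∃ i < n, (i : ℝ) ≤ s ∧ s ≤ i + 1 ∧
        poly n (f p) s = seg (f p i) (f p (i + 1)) (s - i) := by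
      intro n hn
      induction n with
      | zero => exact fun _ _ _ => Or.inl rfl
      | succ n ih =>
        intro s hs hs'
        refine Or.inr ?_
        rw [poly]
        split_ifs with hsn
        · rcases ih (by omega) s hs hsn with rfl | ⟨i, hi, h⟩
          · have h00 : s = 0 := le_antisymm (by simpa using hsn) hs
            subst h00
            refine ⟨0, one_pos, by simp, by simp, ?_⟩
            simp [poly, seg_zero hM (((hfm p).2.2 0 hk0).trans_lt (show η < r by linarith))]
          · exact ⟨i, by omega, h⟩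
        · exact ⟨n, n.lt_succ_self, by linarith, by push_cast at hs' ⊢; linarith, rfl⟩
    have hct := cl_mem t
    rcases key k le_rfl (cl t * k) (by nlinarith [hct.1]) (by nlinarith [hct.2]) with
      h | ⟨i, hi, hi1, hi2, e⟩
    · omega
    rw [e]
    have hs := (hfm p).2.2 i hi
    have h2 := hnear p i t (by
      rw [hcl i hi.le, abs_le, sub_le_iff_le_add, le_sub_iff_add_le, ← neg_div, ← add_div,
        ← add_div, div_le_iff₀ hk', le_div_iff₀ hk']
      constructor <;> linarith)
    linarith [dist_seg_clamp hM (x := f p i) (y := f p (i + 1)) (by linarith) (cl t * k - i),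
      dist_triangle (γ (p, cl t)) (f p i) (seg (f p i) (f p (i + 1)) (cl t * k - i))]
  have hcc := continuous_cl
  refine Compressible.of_homotopy (γ' := chainPath k f)
    (fun q => seg (γ (q.1, cl q.2.2)) (poly k (f q.1) (cl q.2.2 * k)) q.2.1) ?_ ?_ ?_ ?_
    (compressible_chainPath hM hg hgg hr (show η < r by linarith) hk0 (by linarith)
      (fun δ w => hno δ (2 * k) w) hfc hfm)
  · refine continuous_seg_comp hM (hγ.comp (by fun_prop)) ?_ (by fun_prop)
      (fun q => hdist q.1 q.2.2)
    exact continuous_poly hM k (hfc.comp continuous_fst)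
      (fun q i hi => ((hfm q.1).2.2 i hi).trans_lt (by linarith)) (by fun_prop)
  · intro p t ht
    simp only
    rw [seg_zero hM (hdist p t), cl_of_mem ht]
  · intro p t ht
    exact seg_one hM (hdist p t)
  · intro p u t h
    refine seg_fixed hM hg (hdist p t) ?_ ?_ u
    · rcases h with rfl | rfl
      · simpa [cl] using h0 p
      · simpa [cl] using h1 p
    · rcases h with rfl | rfl
      · simpa [cl, poly_zero] using (hfm p).1
      · simpa [cl, poly_top hM k _ (fun i hi => ((hfm p).2.2 i hi).trans_lt
          (show η < r by linarith))] using (hfm p).2.1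

include hM hg hgg hr hno in
theorem Deformable.union {K L K' L' : Set M} (hK : Deformable g K) (hL : Deformable g L)
    (hKc : IsClosed K) (hLc : IsClosed L) (hK' : IsClosed K') (hL' : IsClosed L')
    (hKi : K' ⊆ interior K) (hLi : L' ⊆ interior L) : Deformable g (K' ∪ L') := by
  classical
  obtain ⟨hA, hAc, hA01⟩ := hK
  obtain ⟨hB, hBc, hB01⟩ := hL
  set X := K' ∪ L'
  set a := X \ interior L with ha
  set b := X \ interior K with hb
  set R := X ∩ (K ∩ L) with hR
  have hac : IsClosed a := (hK'.union hL').sdiff isOpen_interior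
  have hbc : IsClosed b := (hK'.union hL').sdiff isOpen_interior
  have hRc : IsClosed R := (hK'.union hL').inter (hKc.inter hLc)
  have haK : a ⊆ K := fun x hx =>
    interior_subset (hx.1.elim (fun h => hKi h) (fun h => absurd (hLi h) hx.2))
  have hbL : b ⊆ L := fun x hx =>
    interior_subset (hx.1.elim (fun h => absurd (hKi h) hx.2) (fun h => hLi h))
  have hab : Disjoint a b := Set.disjoint_left.2 fun x hxa hxb =>
    hxa.1.elim (fun h => hxb.2 (hKi h)) (fun h => hxa.2 (hLi h))
  obtain ⟨μ, hμa, hμb, hμI⟩ := exists_continuous_zero_one_of_isClosed hac hbc hab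
  have hcl := continuous_cl
  have : CompactSpace ↥R := isCompact_iff_compactSpace.1 hRc.isCompact
  -- the loop-like family over the overlap
  have hAR : Continuous fun q : ↥R × ℝ => hA (q.1.1, 1 - 2 * q.2) :=
    hAc.comp_continuous (by fun_prop) fun q => ⟨q.1.2.2.1, mem_univ _⟩
  have hBR : Continuous fun q : ↥R × ℝ => hB (q.1.1, 2 * q.2 - 1) :=
    hBc.comp_continuous (by fun_prop) fun q => ⟨q.1.2.2.2, mem_univ _⟩
  set γ : ↥R × ℝ → M := fun q =>
    if q.2 ≤ 1 / 2 then hA (q.1.1, 1 - 2 * q.2) else hB (q.1.1, 2 * q.2 - 1) with hγ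
  have hγc : Continuous γ := continuous_if_le continuous_snd continuous_const hAR.continuousOn
    hBR.continuousOn fun q hq => by
      rw [hq]
      norm_num
      rw [(hA01 _ q.1.2.2.1).1, (hB01 _ q.1.2.2.2).1]
  obtain ⟨Γ, hΓc, hΓ0, hΓf⟩ := compressible_all hM hg hgg hr hno hγc
    (fun p => by simp only [hγ]; norm_num; exact (hA01 _ p.2.2.1).2)
    (fun p => by simp only [hγ]; norm_num; exact (hB01 _ p.2.2.2).2)
  set Φ : ↥R × ℝ × ℝ → M := fun q => Γ (q.1, cl q.2.2 * min 1 (4 * min q.2.1 (1 - q.2.1)),
    (1 + cl q.2.2 * max (-1) (min 1 (4 * q.2.1 - 2))) / 2) with hΦ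
  have hΦc : Continuous Φ := hΓc.comp (by fun_prop)
  have hΦ0 : ∀ p t, Φ (p, 0, t) = hA (p.1, cl t) := by
    intro p t
    have h := cl_mem t
    simp only [hΦ]
    norm_num
    rw [hΓ0 p _ ⟨by linarith [h.2], by linarith [h.1]⟩, hγ]
    simp only
    rw [if_pos (by linarith [h.1])]
    congr 2
    ring
  have hΦ1 : ∀ p t, Φ (p, 1, t) = hB (p.1, cl t) := by
    intro p t
    have h := cl_mem t
    simp only [hΦ]
    norm_num
    rw [hΓ0 p _ ⟨by linarith [h.1], by linarith [h.2]⟩, hγ]
    simp only
    split_ifs with h2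
    · rw [show cl t = 0 by linarith [h.1]]
      norm_num
      rw [(hA01 _ p.2.2.1).1, (hB01 _ p.2.2.2).1]
    · congr 2
      ring
  refine ⟨fun q => if h : q.1 ∈ R then Φ (⟨q.1, h⟩, μ q.1, q.2)
    else if q.1 ∈ a then hA (q.1, cl q.2) else hB (q.1, cl q.2), ?_, ?_⟩
  · have hcover : X ⊆ (a ∪ b) ∪ R := by
      intro x hx
      by_cases h1 : x ∈ interior K
      · by_cases h2 : x ∈ interior L
        · exact Or.inr ⟨hx, interior_subset h1, interior_subset h2⟩
        · exact Or.inl (Or.inl ⟨hx, h2⟩)
      · exact Or.inl (Or.inr ⟨hx, h1⟩)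
    refine ContinuousOn.mono ?_ (prod_mono hcover (Subset.refl univ))
    rw [union_prod, union_prod]
    refine ((ContinuousOn.union_of_isClosed ?_ ?_ (hac.prod isClosed_univ)
      (hbc.prod isClosed_univ)).union_of_isClosed ?_
        ((hac.prod isClosed_univ).union (hbc.prod isClosed_univ)) (hRc.prod isClosed_univ))
    · refine ContinuousOn.congr (f := fun q : M × ℝ => hA (q.1, cl q.2))
        (hAc.comp (by fun_prop) fun q hq => ⟨haK hq.1, mem_univ _⟩) fun q hq => ?_
      by_cases hqR : q.1 ∈ R
      · simp only [dif_pos hqR]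
        rw [show μ q.1 = 0 from hμa hq.1]
        exact hΦ0 _ _
      · simp only [dif_neg hqR, if_pos hq.1]
    · refine ContinuousOn.congr (f := fun q : M × ℝ => hB (q.1, cl q.2))
        (hBc.comp (by fun_prop) fun q hq => ⟨hbL hq.1, mem_univ _⟩) fun q hq => ?_
      by_cases hqR : q.1 ∈ R
      · simp only [dif_pos hqR]
        rw [show μ q.1 = 1 from hμb hq.1]
        exact hΦ1 _ _
      · simp only [dif_neg hqR, if_neg (fun h => Set.disjoint_left.1 hab h hq.1)]
    · rw [continuousOn_iff_continuous_domRestrict]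
      refine (hΦc.comp (f := fun q : ↥(R ×ˢ (univ : Set ℝ)) =>
        ((⟨q.1.1, q.2.1⟩ : ↥R), μ q.1.1, q.1.2)) (by fun_prop)).congr fun q => ?_
      simp [Set.domRestrict, q.2.1, hΦ]
  · intro x hx
    dsimp only
    by_cases hxR : x ∈ R
    · rw [dif_pos hxR, dif_pos hxR]
      refine ⟨?_, ?_⟩
      · simp only [hΦ]
        norm_num [cl]
        rw [hΓ0 _ _ ⟨by norm_num, by norm_num⟩, hγ]
        norm_num
        exact (hA01 _ hxR.2.1).1
      · simp only [hΦ]
        set s := μ x
        have hs := hμI x
        apply hΓf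
        rcases le_total s (1 / 4) with h1 | h1
        · left
          rw [min_eq_right (show 4 * s - 2 ≤ 1 by linarith),
            max_eq_left (show 4 * s - 2 ≤ -1 by linarith)]
          norm_num [cl]
        rcases le_total (3 / 4) s with h2 | h2
        · right; left
          rw [min_eq_left (show 1 ≤ 4 * s - 2 by linarith), max_eq_right (by norm_num)]
          norm_num [cl]
        · right; right
          rw [min_eq_left (show 1 ≤ 4 * min s (1 - s) by
            rcases min_choice s (1 - s) with h | h <;> rw [h] <;> linarith)]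
          norm_num [cl]
    · rw [dif_neg hxR, dif_neg hxR]
      by_cases hxa : x ∈ a
      · rw [if_pos hxa, if_pos hxa]
        norm_num [cl]
        exact hA01 _ (haK hxa)
      · rw [if_neg hxa, if_neg hxa]
        norm_num [cl]
        refine hB01 _ (hbL ⟨hx, fun h => hxR ⟨hx, interior_subset h, ?_⟩⟩)
        exact interior_subset (not_not.1 fun h' => hxa ⟨hx, h'⟩)

include hM hr in
theorem deformable_closedBall [ConnectedSpace M] {a₀ : M} (ha₀ : g a₀ = a₀) (c : M) {ρ : ℝ}
    (hρ : ρ < r) : Deformable g (Metric.closedBall c ρ) := by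
  obtain ⟨ℓ, -, f, hf, hf0, hf1⟩ :=
    exists_reach hM hr (a := c) (b := a₀) (by
      rw [PreconnectedSpace.connectedComponent_eq_univ]; trivial)
  set π₀ : M → M := fun x => if dist x c < r then x else c with hπ
  refine ⟨fun q => if q.2 ≤ 1 / 2 then seg (π₀ q.1) c (2 * q.2) else f ((2 * q.2 - 1) * ℓ),
    ?_, fun x hx => ?_⟩
  · rw [continuousOn_iff_continuous_domRestrict]
    have hm : ∀ q : ↥(Metric.closedBall c ρ ×ˢ (univ : Set ℝ)), dist q.1.1 c < r := fun q =>
      (Metric.mem_closedBall.1 q.2.1).trans_lt hρ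
    simp only [Set.domRestrict_def, hπ, hm, if_true]
    refine continuous_if_le (continuous_snd.comp continuous_subtype_val) continuous_const
      (continuous_seg_comp hM (continuous_fst.comp continuous_subtype_val) continuous_const
        (by fun_prop) hm).continuousOn
      (hf.continuous.comp (by fun_prop)).continuousOn fun q hq => ?_
    rw [hq]
    norm_num
    rw [seg_one hM (hm q), hf0]
  · have hlt : dist x c < r := (Metric.mem_closedBall.1 hx).trans_lt hρ
    norm_num [hπ, hlt, seg_zero hM hlt, hf1, ha₀]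

include hM hg hgg hr hno in
theorem deformable_univ [ConnectedSpace M] {a₀ : M} (ha₀ : g a₀ = a₀) :
    Deformable g (univ : Set M) := by
  classical
  obtain ⟨t, ht⟩ := isCompact_univ.elim_finite_subcover (fun c : M => Metric.ball c (r / 4))
    (fun c => Metric.isOpen_ball)
    (fun x _ => mem_iUnion.2 ⟨x, Metric.mem_ball_self (by positivity)⟩)
  suffices h : ∀ ρ, ρ < r / 2 → Deformable g (⋃ c ∈ t, Metric.closedBall c ρ) by
    refine (h (r / 4) (by linarith)).mono (ht.trans ?_)
    exact iUnion₂_mono fun c _ => Metric.ball_subset_closedBall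
  clear ht
  induction t using Finset.induction_on with
  | empty => exact fun ρ _ => ⟨fun q => q.1, continuous_fst.continuousOn, by simp⟩
  | insert c t hct ih =>
    intro ρ hρ
    set ρ' := (ρ + r / 2) / 2
    rw [Finset.set_biUnion_insert, union_comm]
    refine Deformable.union hM hg hgg hr hno (ih ρ' (by simp only [ρ']; linarith))
      (deformable_closedBall hM hr ha₀ c (ρ := ρ') (by simp only [ρ']; linarith))
      (isClosed_biUnion_finset fun c _ => Metric.isClosed_closedBall) Metric.isClosed_closedBall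
      (isClosed_biUnion_finset fun c _ => Metric.isClosed_closedBall) Metric.isClosed_closedBall
      ?_ ?_
    · refine iUnion₂_subset fun c' hc' => ?_
      refine Subset.trans ?_ (interior_mono (subset_biUnion_of_mem (u := fun c =>
        Metric.closedBall c ρ') hc'))
      exact (Metric.closedBall_subset_ball (by simp only [ρ']; linarith)).trans
        Metric.ball_subset_interior_closedBall
    · exact (Metric.closedBall_subset_ball (by simp only [ρ']; linarith)).trans
        Metric.ball_subset_interior_closedBall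

omit hno in
include hM hg hgg hr in
/-- If the identity is not homotopic to a map that misses a point, an isometric involution with a
fixed point, not the identity, has an orthogonal chord. -/
theorem exists_chord_of_surjective [ConnectedSpace M] {a₀ : M} (ha₀ : g a₀ = a₀) {b : M}
    (hb : g b ≠ b) (hsurj : ∀ f : C(M, M), (ContinuousMap.id M).Homotopic f → Surjective f) :
    ∃ δ k w, IsChord g {a | g a = a} {a | g a = a} r δ k w := by
  by_contra hcon
  push Not at hcon
  obtain ⟨H, hHc, hH⟩ := deformable_univ hM hg hgg hr hcon ha₀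
  rw [univ_prod_univ, continuousOn_univ] at hHc
  let f : C(M, M) := ⟨fun x => H (x, 1), hHc.comp (by fun_prop)⟩
  obtain ⟨x, hx⟩ := hsurj f ⟨⟨⟨fun q => H (q.2, q.1), hHc.comp (by fun_prop)⟩,
    fun x => (hH x trivial).1, fun x => rfl⟩⟩ b
  exact hb (hx ▸ (hH x trivial).2)

end Vale.Agent.P216
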