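import Vale.Agent.P216.Rank

/-!
# Infinitely many closed geodesics for torus and quaternion actions
-/

namespace Vale.Agent.P216

open Filter Topology Set Function
open scoped Real Quaternion

variable {M : Type*} [MetricSpace M] [CompactSpace M] [ConnectedSpace M] {r : ℝ}

/-- The exponential map of the two-torus. -/
noncomputable def texp (a b : ℝ) : Fin 2 → Circle := ![Circle.exp a, Circle.exp b]

theorem texp_add (a b a' b' : ℝ) : texp (a + a') (b + b') = texp a b * texp a' b' := by
  funext i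
  fin_cases i <;> simp [texp, Circle.exp_add]

theorem texp_zero : texp 0 0 = 1 := by
  funext i
  fin_cases i <;> simp [texp]

theorem continuous_texp : Continuous fun q : ℝ × ℝ => texp q.1 q.2 := by
  refine continuous_pi fun i => ?_
  fin_cases i <;> simp only [texp] <;> simp <;> fun_prop

theorem texp_two_pi (n m : ℤ) : texp (n * (2 * π)) (m * (2 * π)) = 1 := by
  funext i
  fin_cases i <;> simp [texp]

theorem exp_pi_ne_one : Circle.exp π ≠ 1 := by
  intro h
  have := congrArg (fun z : Circle => ((z : ℂ)).re) h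
  norm_num [Circle.coe_exp, Complex.exp_ofReal_mul_I_re] at this

/-- A closed subgroup of the torus containing a one-parameter subgroup contains an involution. -/
theorem exists_involution_mem (S : Subgroup (Fin 2 → Circle))
    (hS : IsClosed (S : Set (Fin 2 → Circle))) (θ : ℝ)
    (hline : ∀ t : ℝ, texp (t * Real.cos θ) (t * Real.sin θ) ∈ S) :
    ∃ z ∈ S, z * z = 1 ∧ z ≠ 1 := by
  have hne : ∀ a b : ℝ, texp a b * texp a b = texp (2 * a) (2 * b) := fun a b => by
    rw [← texp_add, two_mul, two_mul]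
  have hnotone : ∀ (a b : ℝ), Circle.exp a ≠ 1 ∨ Circle.exp b ≠ 1 → texp a b ≠ 1 := by
    intro a b h e
    have e0 := congrFun e 0
    have e1 := congrFun e 1
    simp [texp] at e0 e1
    tauto
  rcases eq_or_ne (Real.cos θ) 0 with hc | hc
  · have hs : Real.sin θ ≠ 0 := by
      intro hs
      simpa [hc, hs] using Real.sin_sq_add_cos_sq θ
    refine ⟨texp 0 π, ?_, ?_, hnotone _ _ (Or.inr exp_pi_ne_one)⟩
    · have := hline (π / Real.sin θ)
      rwa [hc, mul_zero, div_mul_cancel₀ _ hs] at this
    · rw [hne, mul_zero]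
      simpa using texp_two_pi 0 1
  set s := Real.sin θ / Real.cos θ with hs
  have hline' : ∀ u : ℝ, texp u (u * s) ∈ S := fun u => by
    have := hline (u / Real.cos θ)
    rwa [div_mul_cancel₀ _ hc, show u / Real.cos θ * Real.sin θ = u * s by rw [hs]; ring] at this
  -- the trace of the subgroup on the second factor
  let Y : AddSubgroup ℝ :=
    { carrier := {y | texp 0 y ∈ S}
      zero_mem' := by show texp 0 0 ∈ S; rw [texp_zero]; exact S.one_mem
      add_mem' := fun {a b} (ha : texp 0 a ∈ S) (hb : texp 0 b ∈ S) => by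
        show texp 0 (a + b) ∈ S
        rw [← add_zero (0 : ℝ), texp_add]
        exact S.mul_mem ha hb
      neg_mem' := fun {a} (ha : texp 0 a ∈ S) => by
        show texp 0 (-a) ∈ S
        have e : texp 0 (-a) * texp 0 a = 1 := by
          rw [← texp_add, add_zero, neg_add_cancel, texp_zero]
        rw [eq_inv_of_mul_eq_one_left e]
        exact S.inv_mem ha }
  have h2π : 2 * π ∈ Y := by
    show texp 0 (2 * π) ∈ S
    have := texp_two_pi 0 1
    simp only [Int.cast_zero, zero_mul, Int.cast_one, one_mul] at this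
    rw [this]
    exact S.one_mem
  have hslope : 2 * π * s ∈ Y := by
    show texp 0 (2 * π * s) ∈ S
    have h1 : texp (-((1 : ℤ) * (2 * π))) 0 = 1 := by
      simpa using texp_two_pi (-1) 0
    have := hline' (2 * π)
    rw [show texp 0 (2 * π * s) = texp (-((1 : ℤ) * (2 * π))) 0 * texp (2 * π) (2 * π * s) by
      rw [← texp_add]; simp]
    rw [h1, one_mul]
    exact this
  have hYc : IsClosed (Y : Set ℝ) :=
    hS.preimage (continuous_texp.comp (continuous_const.prodMk continuous_id))
  have hπ : π ∈ Y → ∃ z ∈ S, z * z = 1 ∧ z ≠ 1 := fun h => by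
    refine ⟨texp 0 π, h, ?_, hnotone _ _ (Or.inr exp_pi_ne_one)⟩
    rw [hne, mul_zero]
    simpa using texp_two_pi 0 1
  rcases AddSubgroup.dense_or_cyclic Y with hd | ⟨a, ha⟩
  · refine hπ ?_
    have := hd π
    rwa [hYc.closure_eq] at this
  rw [ha, ← AddSubgroup.zmultiples_eq_closure, AddSubgroup.mem_zmultiples_iff] at h2π hslope
  obtain ⟨n, hn⟩ := h2π
  obtain ⟨m, hm⟩ := hslope
  rw [zsmul_eq_mul] at hn hm
  obtain ⟨k, hk | hk⟩ := Int.even_or_odd' n
  · refine hπ ?_
    rw [ha, ← AddSubgroup.zmultiples_eq_closure, AddSubgroup.mem_zmultiples_iff]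
    refine ⟨k, ?_⟩
    rw [zsmul_eq_mul]
    rw [hk] at hn
    push_cast at hn
    linarith
  · have hn0 : (n : ℝ) ≠ 0 := by
      have : n ≠ 0 := by omega
      exact_mod_cast this
    have hns : (n : ℝ) * π * s = m * π := by
      have e1 : (m : ℝ) * a = (n : ℝ) * a * s := by rw [hn, hm]
      have ha0 : a ≠ 0 := by
        intro h
        rw [h, mul_zero] at hn
        linarith [Real.pi_pos]
      have e2 : (m : ℝ) = n * s := mul_right_cancel₀ ha0 (by rw [e1]; ring)
      rw [e2]; ring
    refine ⟨texp (n * π) (m * π), hns ▸ hline' (n * π), ?_, hnotone _ _ (Or.inl ?_)⟩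
    · rw [hne, show 2 * ((n : ℝ) * π) = n * (2 * π) by ring,
        show 2 * ((m : ℝ) * π) = m * (2 * π) by ring, texp_two_pi]
    · rw [hk]
      push_cast
      rw [show (2 * (k : ℝ) + 1) * π = k * (2 * π) + π by ring, Circle.exp_add,
        Circle.exp_int_mul_two_pi, one_mul]
      exact exp_pi_ne_one

theorem infinite_geodesics_two_torus [MulAction (Fin 2 → Circle) M]
    [ContinuousSMul (Fin 2 → Circle) M] (hM : UniqueMid M r) (hext : UniqueExt M r) (hr : 0 < r)
    (hiso : ∀ φ : Fin 2 → Circle, Isometry fun x : M => φ • x)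
    (hsurj : ∀ f : C(M, M), (ContinuousMap.id M).Homotopic f → Surjective f)
    (heff : ∀ φ : Fin 2 → Circle, (∀ x : M, φ • x = x) → φ = 1) :
    {C : Set M | IsGeodesicImage C}.Infinite := by
  by_cases hinv : ∃ z : Fin 2 → Circle, z * z = 1 ∧ z ≠ 1 ∧ ∃ a : M, z • a = a
  · obtain ⟨z, hzz, hz1, a, ha⟩ := hinv
    obtain ⟨b, hb⟩ : ∃ b : M, z • b ≠ b := by
      by_contra! h
      exact hz1 (heff z h)
    exact infinite_geodesics_involution hM hext hr hiso hsurj z
      (fun φ x => by rw [smul_smul, mul_comm, ← smul_smul])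
      (fun x => by rw [smul_smul, hzz, one_smul]) ha hb
  push Not at hinv
  intro hfinite
  have htp : texp (2 * π) 0 = 1 := by simpa using texp_two_pi 1 0
  have hex : ∃ C : Set M, IsGeodesicImage C := by
    refine exists_geodesic_of_free hM hr hiso (fun t => texp t 0)
      (continuous_texp.comp (continuous_id.prodMk continuous_const))
      (fun s t => by rw [← texp_add, add_zero]) (fun x => by rw [htp, one_smul])
      (hinv _ ?_ ?_)
    · rw [← texp_add, add_zero, ← two_mul, htp]
    · intro h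
      exact exp_pi_ne_one (by simpa [texp] using congrFun h 0)
  obtain ⟨x, θ, hx⟩ := exists_fixed_line hiso hfinite hex
    (fun t θ => texp (t * Real.cos θ) (t * Real.sin θ))
    (continuous_texp.comp (f := fun q : ℝ × ℝ => (q.1 * Real.cos q.2, q.1 * Real.sin q.2))
      (by fun_prop))
    (fun θ s t => by rw [← texp_add, add_mul, add_mul])
    (fun t θ => by rw [Real.cos_add_pi, Real.sin_add_pi]; ring_nf)
  obtain ⟨z, hz, hzz, hz1⟩ := exists_involution_mem (MulAction.stabilizer _ x)
    (isClosed_eq (continuous_id.smul continuous_const) continuous_const) θ hx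
  exact hinv z hzz hz1 x hz

section Circles

variable {G : Type*} [Group G] [TopologicalSpace G] [IsTopologicalGroup G] [CompactSpace G]
  [ConnectedSpace G] [MulAction G M] [ContinuousSMul G M]

/-- A circle's worth of circles through a central element `ν`, each half-turn moving a point. -/
theorem infinite_geodesics_of_circles (hM : UniqueMid M r) (hext : UniqueExt M r) (hr : 0 < r)
    (hiso : ∀ φ : G, Isometry fun x : M => φ • x)
    (hsurj : ∀ f : C(M, M), (ContinuousMap.id M).Homotopic f → Surjective f)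
    (ρ : ℝ → Circle →* G) (hρc : Continuous fun q : Circle × ℝ => ρ q.2 q.1)
    (hanti : ∀ θ t, ρ (θ + π) (Circle.exp t) = ρ θ (Circle.exp (-t)))
    (ν : G) (hν : ∀ θ, ρ θ (Circle.exp π) = ν) (hcentral : ∀ φ : G, ν * φ = φ * ν)
    (hmoved : ∀ θ, ∃ b : M, ρ θ (Circle.exp (π / 2)) • b ≠ b) :
    {C : Set M | IsGeodesicImage C}.Infinite := by
  set γ : ℝ → ℝ → G := fun t θ => ρ θ (Circle.exp t) with hγdef
  have hγc : Continuous fun q : ℝ × ℝ => γ q.1 q.2 :=
    hρc.comp (f := fun q : ℝ × ℝ => (Circle.exp q.1, q.2)) (by fun_prop)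
  have hγ : ∀ θ s t, γ (s + t) θ = γ s θ * γ t θ := fun θ s t => by
    simp only [hγdef, Circle.exp_add, map_mul]
  have hγanti : ∀ t θ, γ t (θ + π) = γ (-t) θ := fun t θ => hanti θ t
  have hπ : ∀ θ, γ π θ = ν := hν
  have h2π : ∀ θ, γ (2 * π) θ = 1 := fun θ => by
    simp only [hγdef, Circle.exp_two_pi, map_one]
  have hνν : ∀ x : M, ν • ν • x = x := fun x => by
    rw [smul_smul, ← hπ 0, ← hγ, ← two_mul, h2π, one_smul]
  intro hfinite
  by_cases hneg : ∃ b : M, ν • b ≠ b
  · obtain ⟨b, hb⟩ := hneg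
    have hfree : ∀ a : M, ν • a ≠ a := fun a ha =>
      infinite_geodesics_involution hM hext hr hiso hsurj ν
        (fun φ x => by rw [smul_smul, hcentral, ← smul_smul]) hνν ha hb hfinite
    have hex : ∃ C : Set M, IsGeodesicImage C :=
      exists_geodesic_of_free hM hr hiso (fun t => γ t 0)
        (hγc.comp (continuous_id.prodMk continuous_const)) (hγ 0)
        (fun x => by rw [h2π, one_smul]) (fun x => by rw [hπ]; exact hfree x)
    obtain ⟨x, θ, hx⟩ := exists_fixed_line hiso hfinite hex γ hγc hγ hγanti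
    have := hx π
    rw [hπ] at this
    exact hfree x this
  push Not at hneg
  have hhalf : ∀ θ : ℝ, ∀ a : M, γ (π / 2) θ • a ≠ a := by
    intro θ a ha
    obtain ⟨b, hb⟩ := hmoved θ
    let _ : MulAction Circle M := MulAction.compHom M (ρ θ)
    have : ContinuousSMul Circle M :=
      ⟨(hρc.comp (f := fun q : Circle × M => (q.1, θ)) (by fun_prop)).smul continuous_snd⟩
    refine infinite_geodesics_involution (G := Circle) hM hext hr
      (fun φ => hiso (ρ θ φ)) hsurj (Circle.exp (π / 2))
      (fun φ x => by rw [smul_smul, mul_comm, ← smul_smul]) (fun x => ?_) ha hb hfinite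
    show γ (π / 2) θ • γ (π / 2) θ • x = x
    rw [smul_smul, ← hγ, add_halves, hπ]
    exact hneg x
  have hex : ∃ C : Set M, IsGeodesicImage C := by
    refine exists_geodesic_of_free hM hr hiso (fun t => γ (t / 2) 0)
      (hγc.comp ((continuous_id.div_const 2).prodMk continuous_const))
      (fun s t => by rw [← hγ, add_div]) (fun x => ?_) (hhalf 0)
    rw [show 2 * π / 2 = π by ring, hπ]
    exact hneg x
  obtain ⟨x, θ, hx⟩ := exists_fixed_line hiso hfinite hex γ hγc hγ hγanti
  exact hhalf θ x (hx (π / 2))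

end Circles

/-- Shortcuts for instance search. -/
noncomputable local instance : Group ↥(Metric.sphere (0 : ℍ[ℝ]) 1) := Metric.unitSphere.instGroup

noncomputable local instance : Monoid ↥(Metric.sphere (0 : ℍ[ℝ]) 1) :=
  Metric.unitSphere.instMonoid

/-- A quaternion with vanishing last coordinate. -/
def qmk (a b c : ℝ) : ℍ[ℝ] := ⟨a, b, c, 0⟩

@[simp] theorem qmk_re (a b c : ℝ) : (qmk a b c).re = a := rfl
@[simp] theorem qmk_imI (a b c : ℝ) : (qmk a b c).imI = b := rfl
@[simp] theorem qmk_imJ (a b c : ℝ) : (qmk a b c).imJ = c := rfl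
@[simp] theorem qmk_imK (a b c : ℝ) : (qmk a b c).imK = 0 := rfl

/-- The rotations about the axis at angle `θ` in the plane of `i` and `j`. -/
noncomputable def axisRot (θ : ℝ) : Circle →* ↥(Metric.sphere (0 : ℍ[ℝ]) 1) where
  toFun z := ⟨qmk (z : ℂ).re ((z : ℂ).im * Real.cos θ) ((z : ℂ).im * Real.sin θ), by
    have h1 : Complex.normSq (z : ℂ) = 1 := Circle.normSq_coe z
    rw [Complex.normSq_apply] at h1
    set q := qmk (z : ℂ).re ((z : ℂ).im * Real.cos θ) ((z : ℂ).im * Real.sin θ)
    have h3 : ‖q‖ * ‖q‖ = 1 := by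
      rw [← Quaternion.normSq_eq_norm_mul_self, Quaternion.normSq_def']
      simp only [q, qmk_re, qmk_imI, qmk_imJ, qmk_imK]
      linear_combination h1 + (z : ℂ).im ^ 2 * Real.sin_sq_add_cos_sq θ
    rw [mem_sphere_zero_iff_norm]
    rcases mul_self_eq_one_iff.1 h3 with h | h
    · exact h
    · linarith [norm_nonneg q]⟩
  map_one' := by
    apply Subtype.ext
    ext <;> simp
  map_mul' z w := by
    apply Subtype.ext
    ext <;> simp [Complex.mul_re, Complex.mul_im, Quaternion.re_mul, Quaternion.imI_mul,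
      Quaternion.imJ_mul, Quaternion.imK_mul]
    · linear_combination (z : ℂ).im * (w : ℂ).im * Real.sin_sq_add_cos_sq θ
    all_goals ring

theorem continuous_axisRot : Continuous fun q : Circle × ℝ => axisRot q.2 q.1 := by
  refine Continuous.subtype_mk ?_ _
  have he : Continuous fun v : ℝ × ℝ × ℝ => qmk v.1 v.2.1 v.2.2 := by
    refine (Quaternion.linearIsometryEquivTuple.symm.continuous.comp
      (f := fun v : ℝ × ℝ × ℝ => WithLp.toLp 2 ![v.1, v.2.1, v.2.2, 0])
      (by fun_prop)).congr fun v => ?_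
    ext <;> simp
  exact he.comp (f := fun q : Circle × ℝ => ((q.1 : ℂ).re,
    (q.1 : ℂ).im * Real.cos q.2, (q.1 : ℂ).im * Real.sin q.2)) (by fun_prop)

theorem axisRot_add_pi (θ t : ℝ) :
    axisRot (θ + π) (Circle.exp t) = axisRot θ (Circle.exp (-t)) := by
  apply Subtype.ext
  ext <;> simp [axisRot, Circle.coe_exp, Complex.exp_ofReal_mul_I_re,
    Complex.exp_ofReal_mul_I_im, Real.cos_add_pi, Real.sin_add_pi,
    -Complex.ofReal_neg, -Circle.exp_neg]

theorem axisRot_pi (θ : ℝ) : axisRot θ (Circle.exp π) = -1 := by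
  apply Subtype.ext
  ext <;> simp [axisRot, Circle.coe_exp,
    Complex.exp_ofReal_mul_I_im]

theorem axisRot_half_ne (θ : ℝ) :
    (axisRot θ (Circle.exp (π / 2))).1 ≠ 1 ∧ (axisRot θ (Circle.exp (π / 2))).1 ≠ -1 := by
  have h : (axisRot θ (Circle.exp (π / 2))).1.re = 0 := by
    simp [axisRot, Circle.coe_exp, Complex.exp_ofReal_mul_I_re, Complex.exp_ofReal_mul_I_im,
      -Complex.ofReal_div]
  constructor <;> intro e <;> rw [e] at h <;> simp at h

theorem infinite_geodesics_quaternion [MulAction ↥(Metric.sphere (0 : ℍ[ℝ]) 1) M]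
    [ContinuousSMul ↥(Metric.sphere (0 : ℍ[ℝ]) 1) M] (hM : UniqueMid M r) (hext : UniqueExt M r)
    (hr : 0 < r) (hiso : ∀ φ : ↥(Metric.sphere (0 : ℍ[ℝ]) 1), Isometry fun x : M => φ • x)
    (hsurj : ∀ f : C(M, M), (ContinuousMap.id M).Homotopic f → Surjective f)
    (heff : ∀ φ : ↥(Metric.sphere (0 : ℍ[ℝ]) 1), (∀ x : M, φ • x = x) → φ.1 = 1 ∨ φ.1 = -1) :
    {C : Set M | IsGeodesicImage C}.Infinite := by
  haveI : ConnectedSpace ↥(Metric.sphere (0 : ℍ[ℝ]) 1) :=
    Subtype.connectedSpace (isConnected_sphere (by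
      rw [← Module.finrank_eq_rank, Quaternion.finrank_eq_four]; norm_num) 0 zero_le_one)
  refine infinite_geodesics_of_circles hM hext hr hiso hsurj axisRot continuous_axisRot
    axisRot_add_pi (-1) axisRot_pi
    (fun φ => by rw [neg_one_mul, mul_neg_one]) fun θ => ?_
  by_contra! h
  rcases heff _ h with e | e
  · exact (axisRot_half_ne θ).1 e
  · exact (axisRot_half_ne θ).2 e

end Vale.Agent.P216
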