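import Mathlib

/-!
# Segments in metric spaces with unique midpoints for nearby points
-/

namespace Vale.Agent.P216

open Filter Topology Set

variable {M : Type*} [MetricSpace M]

/-- `m` is a midpoint of `x` and `y`. -/
def IsMid (x y m : M) : Prop := dist x m = dist x y / 2 ∧ dist m y = dist x y / 2

/-- Points at distance less than `r` have exactly one midpoint. -/
def UniqueMid (M : Type*) [MetricSpace M] (r : ℝ) : Prop :=
  ∀ x y : M, dist x y < r → ∃! m, IsMid x y m

open Classical in
/-- A chosen midpoint. -/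
noncomputable def mid (x y : M) : M := if h : ∃ m, IsMid x y m then h.choose else x

theorem isMid_mid {r : ℝ} (hM : UniqueMid M r) {x y : M} (h : dist x y < r) :
    IsMid x y (mid x y) := by
  have he : ∃ m, IsMid x y m := (hM x y h).exists
  rw [mid, dif_pos he]
  exact he.choose_spec

theorem mid_eq {r : ℝ} (hM : UniqueMid M r) {x y m : M} (h : dist x y < r) (hm : IsMid x y m) :
    mid x y = m :=
  (hM x y h).unique (isMid_mid hM h) hm

theorem IsMid.map {f : M → M} (hf : Isometry f) {x y m : M} (h : IsMid x y m) :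
    IsMid (f x) (f y) (f m) := by
  simpa [IsMid, hf.dist_eq] using h

theorem map_mid {r : ℝ} (hM : UniqueMid M r) {f : M → M} (hf : Isometry f) {x y : M}
    (h : dist x y < r) : f (mid x y) = mid (f x) (f y) :=
  (mid_eq hM (by rwa [hf.dist_eq]) ((isMid_mid hM h).map hf)).symm

/-- The dyadic points of level `n` on the segment from `x` to `y`. -/
noncomputable def dyad (x y : M) : ℕ → ℕ → M
  | 0, k => if k = 0 then x else y
  | n + 1, k => if k % 2 = 0 then dyad x y n (k / 2)
      else mid (dyad x y n (k / 2)) (dyad x y n (k / 2 + 1))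

theorem dyad_zero (x y : M) : ∀ n, dyad x y n 0 = x
  | 0 => by simp [dyad]
  | n + 1 => by simp [dyad, dyad_zero x y n]

theorem dyad_top (x y : M) : ∀ n, dyad x y n (2 ^ n) = y
  | 0 => by simp [dyad]
  | n + 1 => by
    have h : (2 : ℕ) ^ (n + 1) % 2 = 0 := by rw [pow_succ]; omega
    have h' : (2 : ℕ) ^ (n + 1) / 2 = 2 ^ n := by rw [pow_succ]; omega
    simp [dyad, h, h', dyad_top x y n]

variable {r : ℝ}

theorem dist_dyad_succ (hM : UniqueMid M r) {x y : M} (h : dist x y < r) :
    ∀ n k, k < 2 ^ n → dist (dyad x y n k) (dyad x y n (k + 1)) = dist x y / 2 ^ n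
  | 0, k, hk => by
    obtain rfl : k = 0 := by simpa using hk
    simp [dyad]
  | n + 1, k, hk => by
    have hk2 : k / 2 < 2 ^ n := by rw [pow_succ] at hk; omega
    have ih := dist_dyad_succ hM h n (k / 2) hk2
    have hlt : dist (dyad x y n (k / 2)) (dyad x y n (k / 2 + 1)) < r := by
      rw [ih]
      exact lt_of_le_of_lt (div_le_self dist_nonneg (one_le_pow₀ one_le_two)) h
    obtain ⟨m1, m2⟩ := isMid_mid hM hlt
    rcases Nat.mod_two_eq_zero_or_one k with he | ho
    · have e1 : (k + 1) % 2 = 1 := by omega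
      have e2 : (k + 1) / 2 = k / 2 := by omega
      simp only [dyad, he, e1, e2, if_true, one_ne_zero, if_false]
      rw [m1, ih, pow_succ, div_div]
    · have e1 : (k + 1) % 2 = 0 := by omega
      have e2 : (k + 1) / 2 = k / 2 + 1 := by omega
      simp only [dyad, ho, e1, e2, if_true, one_ne_zero, if_false]
      rw [m2, ih, pow_succ, div_div]

theorem dist_dyad_le (hM : UniqueMid M r) {x y : M} (h : dist x y < r) (n : ℕ) :
    ∀ i j, i ≤ j → j ≤ 2 ^ n →
      dist (dyad x y n i) (dyad x y n j) ≤ ((j : ℝ) - i) * (dist x y / 2 ^ n) := by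
  intro i j hij hj
  induction j, hij using Nat.le_induction with
  | base => simp
  | succ j hij ih =>
    have := dist_dyad_succ hM h n j (by omega)
    have := ih (by omega)
    have := dist_triangle (dyad x y n i) (dyad x y n j) (dyad x y n (j + 1))
    push_cast
    linarith

theorem map_dyad (hM : UniqueMid M r) {f : M → M} (hf : Isometry f) {x y : M} (h : dist x y < r) :
    ∀ n k, k ≤ 2 ^ n → f (dyad x y n k) = dyad (f x) (f y) n k
  | 0, k, hk => by simp only [dyad]; split_ifs <;> rfl
  | n + 1, k, hk => by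
    have hk2 : k / 2 ≤ 2 ^ n := by rw [pow_succ] at hk; omega
    simp only [dyad]
    split_ifs with he
    · exact map_dyad hM hf h n _ hk2
    · have hk3 : k / 2 < 2 ^ n := by rw [pow_succ] at hk; omega
      rw [map_mid hM hf, map_dyad hM hf h n _ hk2, map_dyad hM hf h n _ hk3]
      rw [dist_dyad_succ hM h n _ hk3]
      exact lt_of_le_of_lt (div_le_self dist_nonneg (one_le_pow₀ one_le_two)) h

/-- The index of the dyadic point of level `n` just before `t`. -/
noncomputable def dix (t : ℝ) (n : ℕ) : ℕ := ⌊t * 2 ^ n⌋₊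

theorem dix_le {t : ℝ} (ht : t ≤ 1) (n : ℕ) : dix t n ≤ 2 ^ n := by
  refine Nat.floor_le_of_le ?_
  push_cast
  exact mul_le_of_le_one_left (by positivity) ht

theorem abs_dix_sub {t : ℝ} (ht : 0 ≤ t) (n : ℕ) :
    |(dix t n : ℝ) / 2 ^ n - t| ≤ (1 / 2) ^ n := by
  have h2 : (0 : ℝ) < 2 ^ n := by positivity
  have h1 := Nat.floor_le (mul_nonneg ht h2.le)
  have h3 := Nat.lt_floor_add_one (t * (2 : ℝ) ^ n)
  rw [div_sub' h2.ne', abs_div, abs_of_pos h2, one_div, inv_pow, inv_eq_one_div]
  gcongr
  rw [abs_le, dix]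
  constructor <;> linarith

theorem dist_dyad_le_abs (hM : UniqueMid M r) {x y : M} (h : dist x y < r) (n : ℕ) {i j : ℕ}
    (hi : i ≤ 2 ^ n) (hj : j ≤ 2 ^ n) :
    dist (dyad x y n i) (dyad x y n j) ≤ |(i : ℝ) / 2 ^ n - j / 2 ^ n| * dist x y := by
  rcases le_total i j with hij | hij
  · refine (dist_dyad_le hM h n i j hij hj).trans (le_of_eq ?_)
    rw [abs_sub_comm, ← sub_div, abs_of_nonneg (div_nonneg (sub_nonneg.2 (by exact_mod_cast hij))
      (by positivity))]
    ring
  · rw [dist_comm]
    refine (dist_dyad_le hM h n j i hij hi).trans (le_of_eq ?_)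
    rw [← sub_div, abs_of_nonneg (div_nonneg (sub_nonneg.2 (by exact_mod_cast hij))
      (by positivity))]
    ring

theorem dist_dyad_dix_succ (hM : UniqueMid M r) {x y : M} (h : dist x y < r) {t : ℝ} (ht : 0 ≤ t)
    (ht1 : t ≤ 1) (n : ℕ) :
    dist (dyad x y n (dix t n)) (dyad x y (n + 1) (dix t (n + 1))) ≤
      2 * dist x y * (1 / 2) ^ n := by
  have hk := dix_le ht1 n
  have h2k : dyad x y (n + 1) (2 * dix t n) = dyad x y n (dix t n) := by
    simp [dyad]
  rw [← h2k]
  refine (dist_dyad_le_abs hM h (n + 1) (by rw [pow_succ]; omega) (dix_le ht1 _)).trans ?_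
  rw [mul_comm 2 (dist x y), mul_assoc, mul_comm]
  refine mul_le_mul_of_nonneg_left ?_ dist_nonneg
  have a := abs_le.1 (abs_dix_sub ht n)
  have b := abs_le.1 (abs_dix_sub ht (n + 1))
  have c : ((2 * dix t n : ℕ) : ℝ) / 2 ^ (n + 1) = (dix t n : ℝ) / 2 ^ n := by
    push_cast; field_simp; ring
  have d : (1 / 2 : ℝ) ^ (n + 1) ≤ (1 / 2) ^ n :=
    pow_le_pow_of_le_one (by norm_num) (by norm_num) n.le_succ
  rw [c, abs_le]
  constructor <;> linarith

open Classical in
/-- The segment from `x` to `y`, parametrised on `[0, 1]` and constant outside. -/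
noncomputable def seg (x y : M) (t : ℝ) : M :=
  if h : ∃ p, Tendsto (fun n => dyad x y n (dix (max 0 (min t 1)) n)) atTop (𝓝 p) then h.choose
  else x

theorem tendsto_seg [CompleteSpace M] (hM : UniqueMid M r) {x y : M} (h : dist x y < r) (t : ℝ) :
    Tendsto (fun n => dyad x y n (dix (max 0 (min t 1)) n)) atTop (𝓝 (seg x y t)) := by
  have hc : CauchySeq fun n => dyad x y n (dix (max 0 (min t 1)) n) :=
    cauchySeq_of_le_geometric (1 / 2) (2 * dist x y) (by norm_num)
      (dist_dyad_dix_succ hM h (le_max_left _ _) (max_le zero_le_one (min_le_right _ _)))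
  have he := cauchySeq_tendsto_of_complete hc
  rw [seg, dif_pos he]
  exact he.choose_spec

theorem tendsto_dix {t : ℝ} (ht : 0 ≤ t) :
    Tendsto (fun n => (dix t n : ℝ) / 2 ^ n) atTop (𝓝 t) := by
  rw [tendsto_iff_dist_tendsto_zero]
  refine squeeze_zero (fun n => dist_nonneg) (fun n => ?_)
    (tendsto_pow_atTop_nhds_zero_of_lt_one (r := (1 / 2 : ℝ)) (by norm_num) (by norm_num))
  rw [Real.dist_eq]
  exact abs_dix_sub ht n

variable [CompleteSpace M]

theorem dist_seg_le (hM : UniqueMid M r) {x y : M} (h : dist x y < r) (s t : ℝ) :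
    dist (seg x y s) (seg x y t) ≤ |s - t| * dist x y := by
  set s' := max 0 (min s 1)
  set t' := max 0 (min t 1)
  have h1 : dist (seg x y s) (seg x y t) ≤ |s' - t'| * dist x y := by
    refine le_of_tendsto_of_tendsto' ((tendsto_seg hM h s).dist (tendsto_seg hM h t))
      ((((tendsto_dix (le_max_left _ _)).sub (tendsto_dix (le_max_left _ _))).abs).mul_const _)
      fun n => dist_dyad_le_abs hM h n (dix_le ?_ n) (dix_le ?_ n)
    all_goals exact max_le zero_le_one (min_le_right _ _)
  refine h1.trans (mul_le_mul_of_nonneg_right ?_ dist_nonneg)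
  simp only [s', t', max_def, min_def]
  rw [abs_le]
  have := le_abs_self (s - t)
  have := neg_abs_le (s - t)
  constructor <;> split_ifs <;> linarith

theorem seg_zero (hM : UniqueMid M r) {x y : M} (h : dist x y < r) : seg x y 0 = x := by
  refine tendsto_nhds_unique (tendsto_seg hM h 0) ?_
  simp [dix, dyad_zero]

theorem seg_one (hM : UniqueMid M r) {x y : M} (h : dist x y < r) : seg x y 1 = y := by
  refine tendsto_nhds_unique (tendsto_seg hM h 1) ?_
  have e : ∀ n, dix 1 n = 2 ^ n := fun n => by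
    rw [dix, one_mul]
    exact_mod_cast Nat.floor_natCast (2 ^ n)
  simp [e, dyad_top]

theorem dist_seg_left (hM : UniqueMid M r) {x y : M} (h : dist x y < r) {t : ℝ} (h0 : 0 ≤ t)
    (h1 : t ≤ 1) : dist x (seg x y t) = t * dist x y := by
  have a := dist_seg_le hM h 0 t
  have b := dist_seg_le hM h t 1
  rw [seg_zero hM h, abs_sub_comm, sub_zero, abs_of_nonneg h0] at a
  rw [seg_one hM h, abs_sub_comm, abs_of_nonneg (by linarith)] at b
  linarith [dist_triangle x (seg x y t) y]

theorem dist_seg_right (hM : UniqueMid M r) {x y : M} (h : dist x y < r) {t : ℝ} (h0 : 0 ≤ t)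
    (h1 : t ≤ 1) : dist (seg x y t) y = (1 - t) * dist x y := by
  have a := dist_seg_le hM h 0 t
  have b := dist_seg_le hM h t 1
  rw [seg_zero hM h, abs_sub_comm, sub_zero, abs_of_nonneg h0] at a
  rw [seg_one hM h, abs_sub_comm, abs_of_nonneg (by linarith)] at b
  linarith [dist_triangle x (seg x y t) y]

theorem dist_seg (hM : UniqueMid M r) {x y : M} (h : dist x y < r) {s t : ℝ} (h0 : 0 ≤ s)
    (hst : s ≤ t) (h1 : t ≤ 1) : dist (seg x y s) (seg x y t) = (t - s) * dist x y := by
  have a := dist_seg_le hM h s t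
  rw [abs_sub_comm, abs_of_nonneg (sub_nonneg.2 hst)] at a
  have b := dist_seg_left hM h h0 (hst.trans h1)
  have c := dist_seg_right hM h (h0.trans hst) h1
  linarith [dist_triangle4 x (seg x y s) (seg x y t) y]

theorem map_seg (hM : UniqueMid M r) {f : M → M} (hf : Isometry f) {x y : M} (h : dist x y < r)
    (t : ℝ) : f (seg x y t) = seg (f x) (f y) t := by
  refine tendsto_nhds_unique ((hf.continuous.tendsto _).comp (tendsto_seg hM h t)) ?_
  have h' : dist (f x) (f y) < r := by rwa [hf.dist_eq]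
  refine (tendsto_seg hM h' t).congr fun n => ?_
  exact (map_dyad hM hf h n _ (dix_le (max_le zero_le_one (min_le_right _ _)) n)).symm

end Vale.Agent.P216
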