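import Vale.Agent.P216.CircleFixed

/-!
# The round three-sphere with its left multiplications as an example
-/

namespace Vale.Agent.P216

open InnerProductGeometry Real Set
open scoped RealInnerProductSpace Quaternion

/-- The unit sphere, to carry the angular metric. -/
structure QSph where
  /-- The vector. -/
  val : ℍ[ℝ]
  norm_val : ‖val‖ = 1

theorem QSph.ext' {x y : QSph} (h : x.val = y.val) : x = y := by
  cases x; cases y; simp_all

theorem QSph.ne_zero (x : QSph) : x.val ≠ 0 := by
  intro h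
  have := x.norm_val
  simp [h] at this

noncomputable instance : MetricSpace QSph where
  dist x y := angle x.val y.val
  dist_self x := angle_self x.ne_zero
  dist_comm x y := angle_comm _ _
  dist_triangle x y z := angle_le_angle_add_angle _ _ _
  eq_of_dist_eq_zero {x y} h := by
    obtain ⟨-, c, hc, e⟩ := angle_eq_zero_iff.1 h
    have := y.norm_val
    rw [e, norm_smul, x.norm_val, mul_one, Real.norm_of_nonneg hc.le] at this
    exact QSph.ext' (by rw [e, this, one_smul])

theorem QSph.dist_def (x y : QSph) : dist x y = angle x.val y.val := rfl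

theorem QSph.cos_dist (x y : QSph) : cos (dist x y) = ⟪x.val, y.val⟫ := by
  rw [QSph.dist_def, cos_angle, x.norm_val, y.norm_val, mul_one, div_one]

/-- The round sphere and the sphere with the angular metric are homeomorphic. -/
noncomputable def toQSph : ↥(Metric.sphere (0 : ℍ[ℝ]) 1) ≃ QSph where
  toFun p := ⟨p.1, by simp⟩
  invFun x := ⟨x.val, by simp [x.norm_val]⟩
  left_inv p := rfl
  right_inv x := rfl

theorem continuous_toQSph : Continuous toQSph := by
  refine continuous_iff_continuousAt.2 fun p => ?_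
  rw [ContinuousAt, tendsto_iff_dist_tendsto_zero]
  have hp : (toQSph p).val ≠ 0 := (toQSph p).ne_zero
  have h : ContinuousAt (fun q : ↥(Metric.sphere (0 : ℍ[ℝ]) 1) => angle q.1 (toQSph p).val) p :=
    (continuousAt_angle (x := (p.1, (toQSph p).val)) hp hp).comp
      (f := fun q : ↥(Metric.sphere (0 : ℍ[ℝ]) 1) => (q.1, (toQSph p).val))
      (continuous_subtype_val.prodMk continuous_const).continuousAt
  have e : angle p.1 p.1 = 0 := angle_self hp
  have := h.tendsto
  simp only [QSph.dist_def, toQSph, Equiv.coe_fn_mk] at this ⊢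
  rwa [e] at this

instance : CompactSpace QSph := toQSph.surjective.compactSpace continuous_toQSph

theorem continuous_val_qsph : Continuous QSph.val :=
  continuous_subtype_val.comp
    (Continuous.homeoOfEquivCompactToT2 (f := toQSph) continuous_toQSph).symm.continuous

instance : ConnectedSpace QSph := by
  have : ConnectedSpace ↥(Metric.sphere (0 : ℍ[ℝ]) 1) :=
    isConnected_iff_connectedSpace.1 (isConnected_sphere (by
      rw [← Module.finrank_eq_rank, Quaternion.finrank_eq_four]; norm_num) 0 zero_le_one)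
  exact toQSph.surjective.connectedSpace continuous_toQSph

theorem uniqueMid_qsph : UniqueMid QSph π := by
  intro x y h
  set θ := dist x y with hθ
  have hθ0 : 0 ≤ θ := dist_nonneg
  set c := cos (θ / 2) with hc
  have hc0 : 0 < c := cos_pos_of_mem_Ioo ⟨by linarith [pi_pos], by linarith⟩
  have hxx : ⟪x.val, x.val⟫ = 1 := by rw [real_inner_self_eq_norm_sq, x.norm_val, one_pow]
  have hyy : ⟪y.val, y.val⟫ = 1 := by rw [real_inner_self_eq_norm_sq, y.norm_val, one_pow]
  have hxy : ⟪x.val, y.val⟫ = 2 * c ^ 2 - 1 := by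
    rw [← QSph.cos_dist, ← hθ, hc, ← cos_two_mul]
    ring_nf
  have hyx : ⟪y.val, x.val⟫ = 2 * c ^ 2 - 1 := by rw [real_inner_comm, hxy]
  set m : ℍ[ℝ] := (2 * c)⁻¹ • (x.val + y.val) with hm
  have hmm : ⟪m, m⟫ = 1 := by
    simp only [hm, inner_smul_left, inner_smul_right, inner_add_left, inner_add_right,
      RCLike.conj_to_real, hxx, hyy, hxy, hyx]
    field_simp
    ring
  have hmn : ‖m‖ = 1 := by rw [norm_eq_sqrt_real_inner, hmm, Real.sqrt_one]
  have hdist : ∀ a b : QSph, ⟪a.val, b.val⟫ = c → dist a b = θ / 2 := by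
    intro a b e
    rw [QSph.dist_def, angle, a.norm_val, b.norm_val, mul_one, div_one, e, hc]
    exact arccos_cos (by linarith) (by linarith [pi_pos])
  refine ⟨⟨m, hmn⟩, ⟨hdist _ _ ?_, hdist _ _ ?_⟩, ?_⟩
  · show ⟪x.val, m⟫ = c
    simp only [hm, inner_smul_right, inner_add_right, hxx, hxy]
    field_simp
    ring
  · show ⟪m, y.val⟫ = c
    simp only [hm, inner_smul_left, inner_add_left, RCLike.conj_to_real, hyy, hxy]
    field_simp
    ring
  · rintro p ⟨h1, h2⟩
    have e1 : ⟪x.val, p.val⟫ = c := by rw [← QSph.cos_dist, h1, hc]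
    have e2 : ⟪p.val, y.val⟫ = c := by rw [← QSph.cos_dist, h2, hc]
    have e3 : ⟪p.val, p.val⟫ = 1 := by rw [real_inner_self_eq_norm_sq, p.norm_val, one_pow]
    refine QSph.ext' ?_
    have hz : ⟪(x.val + y.val) - (2 * c) • p.val, (x.val + y.val) - (2 * c) • p.val⟫ = (0 : ℝ) := by
      simp only [inner_sub_left, inner_sub_right, inner_smul_left, inner_smul_right,
        inner_add_left, inner_add_right, RCLike.conj_to_real, hxx, hyy, hxy, hyx, e3, e1, e2,
        (real_inner_comm x.val p.val).trans e1, (real_inner_comm p.val y.val).trans e2]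
      ring
    rw [inner_self_eq_zero, sub_eq_zero] at hz
    show p.val = m
    rw [hm, hz, smul_smul, inv_mul_cancel₀ (by linarith), one_smul]

theorem uniqueExt_qsph : UniqueExt QSph π := by
  have key : ∀ x m y : QSph, dist x y < π → IsMid x y m →
      y.val = (2 * ⟪x.val, m.val⟫) • m.val - x.val := by
    intro x m y h hm
    obtain ⟨m', hm', huniq⟩ := uniqueMid_qsph x y h
    rw [huniq m hm, ← huniq m hm]
    set c := ⟪x.val, m.val⟫ with hc
    have hcy : ⟪m.val, y.val⟫ = c := by
      rw [hc, ← QSph.cos_dist, ← QSph.cos_dist, hm.1, hm.2]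
    have hxx : ⟪x.val, x.val⟫ = 1 := by rw [real_inner_self_eq_norm_sq, x.norm_val, one_pow]
    have hyy : ⟪y.val, y.val⟫ = 1 := by rw [real_inner_self_eq_norm_sq, y.norm_val, one_pow]
    have hmm : ⟪m.val, m.val⟫ = 1 := by rw [real_inner_self_eq_norm_sq, m.norm_val, one_pow]
    have hxy : ⟪x.val, y.val⟫ = 2 * c ^ 2 - 1 := by
      rw [hc, ← QSph.cos_dist, ← QSph.cos_dist, hm.1, ← cos_two_mul]
      ring_nf
    have hz : ⟪y.val + x.val - (2 * c) • m.val, y.val + x.val - (2 * c) • m.val⟫ = (0 : ℝ) := by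
      simp only [inner_sub_left, inner_sub_right, inner_smul_left, inner_smul_right,
        inner_add_left, inner_add_right, RCLike.conj_to_real, hxx, hyy, hmm,
        (real_inner_comm x.val y.val).trans hxy, hxy, hcy, ← hc,
        (real_inner_comm x.val m.val).trans hc.symm, (real_inner_comm m.val y.val).trans hcy]
      ring
    rw [inner_self_eq_zero, sub_eq_zero] at hz
    rw [← hz]
    abel
  intro x m y y' h h' hy hy'
  exact QSph.ext' ((key x m y h hy).trans (key x m y' h' hy').symm)

noncomputable instance : MulAction ↥(Metric.sphere (0 : ℍ[ℝ]) 1) QSph where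
  smul φ x := ⟨φ.1 * x.val, by rw [norm_mul, norm_eq_of_mem_sphere, x.norm_val, one_mul]⟩
  one_smul x := QSph.ext' (one_mul x.val)
  mul_smul φ ψ x := QSph.ext' (mul_assoc φ.1 ψ.1 x.val)

theorem QSph.smul_val (φ : ↥(Metric.sphere (0 : ℍ[ℝ]) 1)) (x : QSph) :
    (φ • x).val = φ.1 * x.val := rfl

instance : ContinuousSMul ↥(Metric.sphere (0 : ℍ[ℝ]) 1) QSph :=
  ⟨continuous_toQSph.comp (f := fun p : ↥(Metric.sphere (0 : ℍ[ℝ]) 1) × QSph =>
    (⟨p.1.1 * p.2.val, by simp [p.2.norm_val]⟩ : ↥(Metric.sphere (0 : ℍ[ℝ]) 1)))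
    (((continuous_subtype_val.comp continuous_fst).mul
      (continuous_val_qsph.comp continuous_snd)).subtype_mk fun p => by simp [p.2.norm_val])⟩

theorem isometry_smul_qsph (φ : ↥(Metric.sphere (0 : ℍ[ℝ]) 1)) :
    Isometry fun x : QSph => φ • x := by
  refine Isometry.of_dist_eq fun x y => ?_
  simp only [QSph.dist_def, QSph.smul_val]
  let L : ℍ[ℝ] →ₗᵢ[ℝ] ℍ[ℝ] :=
    { toLinearMap := LinearMap.mulLeft ℝ φ.1
      norm_map' := fun v => by simp }
  exact L.angle_map x.val y.val

theorem effective_qsph (φ : ↥(Metric.sphere (0 : ℍ[ℝ]) 1)) (h : ∀ x : QSph, φ • x = x) :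
    φ.1 = 1 ∨ φ.1 = -1 := by
  have := congrArg QSph.val (h ⟨1, norm_one⟩)
  rw [QSph.smul_val, mul_one] at this
  exact Or.inl this

end Vale.Agent.P216
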