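import Vale.Agent.P216.FixedPoint

/-!
# Closed geodesics and one-parameter groups of isometries

A one-parameter group of isometries whose half-turn moves every point has an invariant closed
geodesic. If a compact connected group with a circle's worth of one-parameter subgroups moves only
finitely many closed geodesics, then one of these subgroups has a fixed point.
-/

namespace Vale.Agent.P216

open Filter Topology Set Function
open scoped Real

variable {M : Type*} [MetricSpace M] [CompactSpace M] {r : ℝ}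
  {G : Type*} [Group G] [TopologicalSpace G] [MulAction G M] [ContinuousSMul G M]

omit [MetricSpace M] [CompactSpace M] [TopologicalSpace G] [ContinuousSMul G M] in
/-- The times at which a one-parameter group fixes a point. -/
def fixTimes (ψ : ℝ → G) (hψ : ∀ s t, ψ (s + t) = ψ s * ψ t) (x : M) : AddSubgroup ℝ where
  carrier := {t | ψ t • x = x}
  zero_mem' := by
    have h : ψ 0 = 1 := by simpa using hψ 0 0
    simp [h]
  add_mem' := fun {a b} (ha : ψ a • x = x) (hb : ψ b • x = x) => by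
    show ψ (a + b) • x = x
    rw [hψ, mul_smul, hb, ha]
  neg_mem' := fun {a} (ha : ψ a • x = x) => by
    show ψ (-a) • x = x
    have h : ψ 0 = 1 := by simpa using hψ 0 0
    conv_lhs => rw [← ha]
    rw [smul_smul, ← hψ, neg_add_cancel, h, one_smul]

theorem exists_geodesic_of_free [Nonempty M] (hM : UniqueMid M r) (hr : 0 < r)
    (hiso : ∀ φ : G, Isometry fun x : M => φ • x) (ψ : ℝ → G) (hψc : Continuous ψ)
    (hψ : ∀ s t, ψ (s + t) = ψ s * ψ t) (htop : ∀ x : M, ψ (2 * π) • x = x)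
    (hfree : ∀ x : M, ψ π • x ≠ x) : ∃ C : Set M, IsGeodesicImage C := by
  have hψ0 : ψ 0 = 1 := by simpa using hψ 0 0
  -- a short time
  have hnear : ∀ᶠ t : ℝ in 𝓝 0, ∀ x ∈ (univ : Set M), dist x (ψ t • x) < r := by
    refine isCompact_univ.eventually_forall_of_forall_eventually fun x _ => ?_
    have hc : Continuous fun q : ℝ × M => dist q.2 (ψ q.1 • q.2) := by fun_prop
    exact hc.continuousAt.eventually_lt continuousAt_const (by simp [hψ0, hr])
  obtain ⟨j, hj⟩ : ∃ j : ℕ, ∀ x : M, dist x (ψ (π / 2 ^ j) • x) < r := by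
    have hlim : Tendsto (fun j : ℕ => π / 2 ^ j) atTop (𝓝 0) :=
      tendsto_const_nhds.div_atTop (tendsto_pow_atTop_atTop_of_one_lt one_lt_two)
    exact ((hlim.eventually hnear).mono fun j h x => h x (mem_univ x)).exists
  set a := π / 2 ^ j with ha
  have hmove : ∀ x : M, ψ a • x ≠ x := by
    intro x hx
    refine hfree x ?_
    have h := (fixTimes ψ hψ x).zsmul_mem hx ((2 ^ j : ℕ) : ℤ)
    rw [zsmul_eq_mul] at h
    have e : (((2 ^ j : ℕ) : ℤ) : ℝ) * a = π := by
      rw [ha]; push_cast; field_simp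
    rw [e] at h
    exact h
  obtain ⟨x, -, hmin⟩ := isCompact_univ.exists_isMinOn univ_nonempty
    (continuous_id.dist (continuous_const_smul (ψ a)) :
      Continuous fun x : M => dist x (ψ a • x)).continuousOn
  set δ := dist x (ψ a • x) with hδ
  have hδ0 : 0 < δ := dist_pos.2 (hmove x).symm
  set m := mid x (ψ a • x) with hm
  obtain ⟨m1, m2⟩ := isMid_mid hM (hj x)
  rw [← hm, ← hδ] at m1 m2
  have hmm : dist m (ψ a • m) = δ := by
    refine le_antisymm ?_ (isMinOn_iff.1 hmin m (mem_univ m))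
    have e := (hiso (ψ a)).dist_eq x m
    linarith [dist_triangle m (ψ a • x) (ψ a • m)]
  set z : ℤ → M := fun i => ψ (((i / 2 : ℤ) : ℝ) * a) • (if i % 2 = 0 then x else m) with hz
  have hstep : ∀ (k : ℤ) (y : M),
      ψ (((k + 1 : ℤ) : ℝ) * a) • y = ψ ((k : ℝ) * a) • ψ a • y := by
    intro k y
    rw [smul_smul, ← hψ]
    congr 2
    push_cast
    ring
  refine ⟨_, isGeodesicImage_chain (p := 4 * 2 ^ j) hM (z := z) (δ := δ / 2) (by positivity)
    (by linarith [hj x]) (by positivity) (fun i => ?_) (fun i => ?_) (fun i => ?_)⟩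
  · have e1 : (i + ((4 * 2 ^ j : ℕ) : ℤ)) / 2 = i / 2 + ((2 * 2 ^ j : ℕ) : ℤ) := by omega
    have e2 : (i + ((4 * 2 ^ j : ℕ) : ℤ)) % 2 = i % 2 := by omega
    simp only [hz, e1, e2]
    have e3 : ((i / 2 + ((2 * 2 ^ j : ℕ) : ℤ) : ℤ) : ℝ) * a = ((i / 2 : ℤ) : ℝ) * a + 2 * π := by
      rw [ha]; push_cast; field_simp
    rw [e3, hψ, mul_smul, htop]
  · rcases Int.emod_two_eq_zero_or_one i with he | ho
    · have e1 : (i + 1) / 2 = i / 2 := by omega
      have e2 : (i + 1) % 2 ≠ 0 := by omega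
      simp only [hz, e1, he, e2, if_true, if_false]
      rw [(hiso _).dist_eq, m1]
    · have e1 : (i + 1) / 2 = i / 2 + 1 := by omega
      have e2 : (i + 1) % 2 = 0 := by omega
      have e3 : i % 2 ≠ 0 := by omega
      simp only [hz, e1, e2, e3, if_true, if_false]
      rw [hstep, (hiso _).dist_eq, m2]
  · have e1 : (i + 2) / 2 = i / 2 + 1 := by omega
    have e2 : (i + 2) % 2 = i % 2 := by omega
    simp only [hz, e1, e2]
    rw [hstep, (hiso _).dist_eq]
    split_ifs
    · rw [← hδ]; ring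
    · rw [hmm]; ring

variable [IsTopologicalGroup G] [CompactSpace G] [T2Space G] [ConnectedSpace G]

omit [T2Space G] in
/-- If the group moves only finitely many closed geodesics, one of the subgroups fixes a point. -/
theorem exists_fixed_line
    (hiso : ∀ φ : G, Isometry fun x : M => φ • x)
    (hfinite : {C : Set M | IsGeodesicImage C}.Finite) (hex : ∃ C : Set M, IsGeodesicImage C)
    (γ : ℝ → ℝ → G) (hγc : Continuous fun q : ℝ × ℝ => γ q.1 q.2)
    (hγ : ∀ θ s t, γ (s + t) θ = γ s θ * γ t θ) (hanti : ∀ t θ, γ t (θ + π) = γ (-t) θ) :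
    ∃ (x : M) (θ : ℝ), ∀ t, γ t θ • x = x := by
  obtain ⟨C, hgeo⟩ := hex
  have hfimg : (range fun φ : G => (φ • ·) '' C).Finite :=
    hfinite.subset (range_subset_iff.2 fun φ => hgeo.image (hiso φ))
  have hinv : ∀ (φ : G) (y : M), y ∈ C → φ • y ∈ C := fun φ y hy =>
    smul_mem_of_finite_images C hgeo.isClosed hfimg φ hy
  obtain ⟨c, τ, v, hτ, hv, hper, hloc, rfl⟩ := hgeo
  have hγ0 : ∀ θ, γ 0 θ = 1 := fun θ => by simpa using hγ θ 0 0
  set x := c 0 with hx
  choose ε hε hd using hloc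
  -- finitely many short arcs cover the geodesic
  obtain ⟨T, hT⟩ := isCompact_Icc.elim_finite_subcover
    (fun t : ℝ => Ioo (t - ε t / 2) (t + ε t / 2)) (fun t => isOpen_Ioo) (s := Icc 0 τ)
    (fun t _ => mem_iUnion.2 ⟨t, by have := hε t; constructor <;> linarith⟩)
  set S : T → Set G := fun t =>
    {g | g • x ∈ c '' Icc (t.1 - ε t.1 / 2) (t.1 + ε t.1 / 2)} with hS
  have hSc : ∀ t, IsClosed (S t) := fun t => by
    refine IsClosed.preimage (continuous_id.smul continuous_const)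
      (isCompact_Icc.image_of_continuousOn ?_).isClosed
    have hl : LipschitzOnWith (Real.toNNReal v) c (Icc (t.1 - ε t.1 / 2) (t.1 + ε t.1 / 2)) :=
      LipschitzOnWith.of_dist_le_mul fun s hs u hu => by
        have := hε t.1
        rw [hd t.1 s u (by rw [abs_lt]; constructor <;> linarith [hs.1, hs.2])
          (by rw [abs_lt]; constructor <;> linarith [hu.1, hu.2]),
          Real.coe_toNNReal v hv.le, Real.dist_eq]
    exact hl.continuousOn
  have hcov : ⋃ t, S t = univ := by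
    refine eq_univ_of_forall fun g => ?_
    obtain ⟨s, hs⟩ := hinv g x ⟨0, rfl⟩
    obtain ⟨u, hu, e⟩ := hper.exists_mem_Ico₀ hτ s
    obtain ⟨t, ht, htu⟩ := mem_iUnion₂.1 (hT (Ico_subset_Icc_self hu))
    exact mem_iUnion.2 ⟨⟨t, ht⟩, u, Ioo_subset_Icc_self htu, by rw [← e, hs]⟩
  obtain ⟨⟨t₀, ht₀⟩, g₀, hg₀⟩ := nonempty_interior_of_iUnion_of_closed hSc hcov
  -- small circles in one of the preimages
  have hsmall : ∀ᶠ ρ : ℝ in 𝓝 0, ∀ θ ∈ Icc 0 (2 * π),
      g₀ * γ ρ θ ∈ interior (S ⟨t₀, ht₀⟩) := by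
    refine isCompact_Icc.eventually_forall_of_forall_eventually fun θ _ => ?_
    exact (continuous_const.mul hγc).continuousAt.eventually_mem
      (isOpen_interior.mem_nhds (by simpa [hγ0] using hg₀))
  set a := t₀ - ε t₀ / 2 with ha
  set h : G → ℝ := fun g => dist (c a) (g • x) with hh
  have hhc : Continuous h := continuous_const.dist (continuous_id.smul continuous_const)
  have hinj : ∀ g ∈ S ⟨t₀, ht₀⟩, ∀ g' ∈ S ⟨t₀, ht₀⟩, h g = h g' → g • x = g' • x := by
    rintro g ⟨s, hs, es⟩ g' ⟨u, hu, eu⟩ e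
    have := hε t₀
    simp only [hh, ← es, ← eu] at e
    rw [hd t₀ a s (by rw [ha, abs_lt]; constructor <;> linarith)
      (by rw [abs_lt]; constructor <;> linarith [hs.1, hs.2]),
      hd t₀ a u (by rw [ha, abs_lt]; constructor <;> linarith)
      (by rw [abs_lt]; constructor <;> linarith [hu.1, hu.2])] at e
    have e' := mul_left_cancel₀ hv.ne' e
    rw [abs_of_nonpos (by linarith [hs.1]), abs_of_nonpos (by linarith [hu.1])] at e'
    rw [← es, ← eu, show s = u by linarith]
  have hcircle : ∀ ρ : ℝ, (∀ θ ∈ Icc 0 (2 * π), g₀ * γ ρ θ ∈ interior (S ⟨t₀, ht₀⟩)) →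
      ∃ θ ∈ Icc 0 π, γ (2 * ρ) θ • x = x := by
    intro ρ hρ
    set f : ℝ → ℝ := fun θ => h (g₀ * γ ρ θ) - h (g₀ * γ ρ (θ + π)) with hf
    have hγρ : Continuous fun θ => γ ρ θ :=
      hγc.comp (continuous_const.prodMk continuous_id)
    have hfc : Continuous f := (hhc.comp (continuous_const.mul hγρ)).sub
      (hhc.comp (continuous_const.mul (hγρ.comp (continuous_add_const π))))
    have hanti0 : f π = -f 0 := by
      simp only [hf, zero_add]
      rw [hanti ρ π, show γ (-ρ) π = γ ρ 0 from by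
        simpa using hanti (-ρ) 0]
      ring
    have h0 : (0 : ℝ) ∈ uIcc (f 0) (f π) := by
      rw [hanti0, mem_uIcc]
      rcases le_total 0 (f 0) with h1 | h1
      · exact Or.inr ⟨by linarith, h1⟩
      · exact Or.inl ⟨h1, by linarith⟩
    obtain ⟨θ, hθ, hθ0⟩ := intermediate_value_uIcc hfc.continuousOn h0
    rw [uIcc_of_le Real.pi_pos.le] at hθ
    refine ⟨θ, hθ, ?_⟩
    have e := hinj _ (interior_subset (hρ θ ⟨hθ.1, by linarith [hθ.2, Real.pi_pos]⟩)) _
      (interior_subset (hρ (θ + π) ⟨by linarith [hθ.1, Real.pi_pos], by linarith [hθ.2]⟩))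
      (sub_eq_zero.1 hθ0)
    rw [mul_smul, mul_smul, hanti] at e
    have e' : γ ρ θ • x = γ (-ρ) θ • x := MulAction.injective g₀ e
    calc γ (2 * ρ) θ • x = γ ρ θ • γ ρ θ • x := by rw [smul_smul, ← hγ, two_mul]
      _ = x := by rw [e', smul_smul, ← hγ, add_neg_cancel, hγ0, one_smul]
  -- radii tending to zero
  obtain ⟨ρ₀, hρ₀, hball⟩ := Metric.eventually_nhds_iff.1 hsmall
  set ρ : ℕ → ℝ := fun n => ρ₀ / (n + 2) with hρ
  have hρpos : ∀ n, 0 < ρ n := fun n => by simp only [hρ]; positivity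
  have hρlt : ∀ n, ρ n < ρ₀ := fun n => by
    simp only [hρ]
    exact div_lt_self hρ₀ (by linarith [(Nat.cast_nonneg n : (0 : ℝ) ≤ n)])
  have hang : ∀ n, ∃ θ ∈ Icc 0 π, γ (2 * ρ n) θ • x = x := fun n => hcircle (ρ n)
    (hball (by rw [Real.dist_eq, sub_zero, abs_of_pos (hρpos n)]; exact hρlt n))
  choose θ hθ hfix using hang
  obtain ⟨θ', -, φ, hφ, hlim⟩ := isCompact_Icc.tendsto_subseq hθ
  refine ⟨x, θ', fun t => ?_⟩
  have hclosed : IsClosed {g : G | g • x = x} :=
    isClosed_eq (continuous_id.smul continuous_const) continuous_const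
  have hρ0 : Tendsto (fun n => 2 * ρ (φ n)) atTop (𝓝 0) := by
    have h1 : Tendsto (fun n : ℕ => ρ₀ / ((n : ℝ) + 2)) atTop (𝓝 0) :=
      tendsto_const_nhds.div_atTop (tendsto_atTop_add_const_right _ 2 tendsto_natCast_atTop_atTop)
    simpa using (h1.comp hφ.tendsto_atTop).const_mul 2
  set u : ℕ → ℝ := fun n => (⌊t / (2 * ρ (φ n))⌋ : ℤ) * (2 * ρ (φ n)) with hu
  have hu' : Tendsto u atTop (𝓝 t) := by
    rw [tendsto_iff_dist_tendsto_zero]
    refine squeeze_zero (fun n => dist_nonneg) (fun n => ?_) hρ0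
    have hc : 0 < 2 * ρ (φ n) := by linarith [hρpos (φ n)]
    have h1 := (le_div_iff₀ hc).1 (Int.floor_le (t / (2 * ρ (φ n))))
    have h2 := (div_lt_iff₀ hc).1 (Int.lt_floor_add_one (t / (2 * ρ (φ n))))
    rw [Real.dist_eq, abs_le]
    simp only [hu]
    constructor <;> linarith
  refine hclosed.mem_of_tendsto ((hγc.tendsto (t, θ')).comp (hu'.prodMk_nhds hlim))
    (Eventually.of_forall fun n => ?_)
  have h := (fixTimes (fun s => γ s (θ (φ n))) (hγ _) x).zsmul_mem (hfix (φ n))
    ⌊t / (2 * ρ (φ n))⌋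
  rw [zsmul_eq_mul] at h
  exact h

end Vale.Agent.P216
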