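import Vale.Agent.P216.Midpoint

/-!
# Midpoints and segments depend continuously on their end points
-/

namespace Vale.Agent.P216

open Filter Topology Set

variable {M : Type*} [MetricSpace M] [CompactSpace M] {r : ℝ}

theorem continuousAt_mid (hM : UniqueMid M r) {x y : M} (h : dist x y < r) :
    ContinuousAt (fun p : M × M => mid p.1 p.2) (x, y) := by
  refine Metric.continuousAt_iff'.2 fun ε hε => ?_
  set ρ := (dist x y + r) / 2
  set K : Set ((M × M) × M) := {q | IsMid q.1.1 q.1.2 q.2 ∧ dist q.1.1 q.1.2 ≤ ρ ∧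
    ε ≤ dist q.2 (mid x y)}
  have hKc : IsClosed K := by
    simp only [K, IsMid, ofPred_and]
    refine ((isClosed_eq ?_ ?_).inter (isClosed_eq ?_ ?_)).inter
      ((isClosed_le ?_ ?_).inter (isClosed_le ?_ ?_)) <;> fun_prop
  have hP : IsClosed (Prod.fst '' K) := (hKc.isCompact.image continuous_fst).isClosed
  have hnot : (x, y) ∉ Prod.fst '' K := by
    rintro ⟨⟨p, m⟩, ⟨hm, -, hd⟩, rfl⟩
    simp only at hd hm
    rw [← mid_eq hM h hm, dist_self] at hd
    linarith
  have hc : Continuous fun p : M × M => dist p.1 p.2 := by fun_prop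
  filter_upwards [hP.isOpen_compl.mem_nhds hnot,
    hc.continuousAt.eventually_lt (continuousAt_const (y := ρ))
      (show dist x y < ρ by simp only [ρ]; linarith)] with p hp hρ
  by_contra hcon
  refine hp ⟨(p, mid p.1 p.2), ⟨isMid_mid hM ?_, hρ.le, not_lt.1 hcon⟩, rfl⟩
  simp only [ρ] at hρ
  linarith

theorem continuousAt_dyad (hM : UniqueMid M r) {x y : M} (h : dist x y < r) :
    ∀ n k, k ≤ 2 ^ n → ContinuousAt (fun p : M × M => dyad p.1 p.2 n k) (x, y)
  | 0, k, _ => by
    simp only [dyad]
    split_ifs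
    exacts [continuousAt_fst, continuousAt_snd]
  | n + 1, k, hk => by
    have hk2 : k / 2 ≤ 2 ^ n := by rw [pow_succ] at hk; omega
    simp only [dyad]
    split_ifs with he
    · exact continuousAt_dyad hM h n _ hk2
    · have hk3 : k / 2 < 2 ^ n := by rw [pow_succ] at hk; omega
      refine ContinuousAt.comp (g := fun p : M × M => mid p.1 p.2)
        (f := fun p : M × M => (dyad p.1 p.2 n (k / 2), dyad p.1 p.2 n (k / 2 + 1)))
        (continuousAt_mid hM ?_)
        ((continuousAt_dyad hM h n _ hk2).prodMk (continuousAt_dyad hM h n _ hk3))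
      rw [dist_dyad_succ hM h n _ hk3]
      exact lt_of_le_of_lt (div_le_self dist_nonneg (one_le_pow₀ one_le_two)) h

/-- The segment is jointly continuous. -/
theorem continuousAt_seg (hM : UniqueMid M r) {x y : M} (h : dist x y < r) (t : ℝ) :
    ContinuousAt (fun q : (M × M) × ℝ => seg q.1.1 q.1.2 q.2) ((x, y), t) := by
  refine Metric.continuousAt_iff'.2 fun ε hε => ?_
  have hr : 0 < r := dist_nonneg.trans_lt h
  obtain ⟨n, hn⟩ : ∃ n : ℕ, 4 * r * (1 / 2) ^ n < ε / 4 := by
    obtain ⟨n, hn⟩ := exists_pow_lt_of_lt_one (show 0 < ε / (16 * r) by positivity)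
      (show (1 / 2 : ℝ) < 1 by norm_num)
    refine ⟨n, ?_⟩
    rw [lt_div_iff₀ (by positivity)] at hn
    nlinarith
  have hseg : ∀ a b : M, dist a b < r →
      dist (dyad a b n (dix (max 0 (min t 1)) n)) (seg a b t) ≤ 4 * r * (1 / 2) ^ n := by
    intro a b hab
    have := dist_le_of_le_geometric_of_tendsto (1 / 2) (2 * dist a b) (by norm_num)
      (dist_dyad_dix_succ hM hab (le_max_left _ _) (max_le zero_le_one (min_le_right _ _)))
      (tendsto_seg hM hab t) n
    refine this.trans ?_
    have h0 : (0 : ℝ) ≤ (1 / 2) ^ n := by positivity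
    rw [div_le_iff₀ (by norm_num)]
    nlinarith
  have hdy : ContinuousAt (fun q : (M × M) × ℝ => dyad q.1.1 q.1.2 n (dix (max 0 (min t 1)) n))
      ((x, y), t) :=
    ContinuousAt.comp (x := ((x, y), t)) (g := fun p : M × M => dyad p.1 p.2 n _)
      (continuousAt_dyad hM h n _ (dix_le (max_le zero_le_one (min_le_right _ _)) n))
      continuousAt_fst
  have hd : Continuous fun q : (M × M) × ℝ => dist q.1.1 q.1.2 := by fun_prop
  have ht : Continuous fun q : (M × M) × ℝ => |q.2 - t| := by fun_prop
  filter_upwards [Metric.continuousAt_iff'.1 hdy (ε / 4) (by positivity),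
    hd.continuousAt.eventually_lt (continuousAt_const (y := r)) h,
    ht.continuousAt.eventually_lt (continuousAt_const (y := ε / (4 * r)))
      (by simp; positivity)] with q hq1 hq2 hq3
  have h1 := dist_seg_le hM hq2 q.2 t
  have h2 := hseg _ _ hq2
  have h3 := hseg _ _ h
  have h4 : |q.2 - t| * dist q.1.1 q.1.2 ≤ ε / 4 := by
    rw [lt_div_iff₀ (by positivity)] at hq3
    nlinarith [abs_nonneg (q.2 - t), dist_nonneg (x := q.1.1) (y := q.1.2)]
  have h5 := dist_triangle4 (seg q.1.1 q.1.2 q.2) (seg q.1.1 q.1.2 t)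
    (dyad q.1.1 q.1.2 n (dix (max 0 (min t 1)) n)) (seg x y t)
  have h6 := dist_triangle (dyad q.1.1 q.1.2 n (dix (max 0 (min t 1)) n))
    (dyad x y n (dix (max 0 (min t 1)) n)) (seg x y t)
  rw [dist_comm (seg q.1.1 q.1.2 t) (dyad q.1.1 q.1.2 n (dix (max 0 (min t 1)) n))] at h5
  linarith

theorem continuous_seg_comp (hM : UniqueMid M r) {X : Type*} [TopologicalSpace X] {f g : X → M}
    {t : X → ℝ} (hf : Continuous f) (hg : Continuous g) (ht : Continuous t)
    (h : ∀ x, dist (f x) (g x) < r) : Continuous fun x => seg (f x) (g x) (t x) :=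
  continuous_iff_continuousAt.2 fun x =>
    ContinuousAt.comp (x := x) (f := fun a => ((f a, g a), t a))
      (g := fun q : (M × M) × ℝ => seg q.1.1 q.1.2 q.2) (continuousAt_seg hM (h x) (t x)) ((hf.prodMk hg).prodMk ht).continuousAt

theorem seg_self (hM : UniqueMid M r) (hr : 0 < r) (x : M) (t : ℝ) : seg x x t = x := by
  have h : dist x x < r := by rwa [dist_self]
  have h1 := dist_seg_le hM h t 0
  rw [seg_zero hM h, dist_self, mul_zero] at h1
  exact dist_le_zero.1 h1

theorem dist_seg_clamp (hM : UniqueMid M r) {x y : M} (h : dist x y < r) (t : ℝ) :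
    dist x (seg x y t) ≤ dist x y := by
  have e : seg x y t = seg x y (max 0 (min t 1)) := by
    refine tendsto_nhds_unique (tendsto_seg hM h t) ?_
    have := tendsto_seg hM h (max 0 (min t 1))
    rwa [show max 0 (min (max 0 (min t 1)) 1) = max 0 (min t 1) by
      rw [min_eq_left (max_le zero_le_one (min_le_right _ _)), max_eq_right (le_max_left _ _)]]
      at this
  rw [e, dist_seg_left hM h (le_max_left _ _) (max_le zero_le_one (min_le_right _ _))]
  exact mul_le_of_le_one_left dist_nonneg (max_le zero_le_one (min_le_right _ _))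

/-- A segment between fixed points of an isometry is fixed. -/
theorem seg_fixed (hM : UniqueMid M r) {g : M → M} (hg : Isometry g) {x y : M}
    (h : dist x y < r) (hx : g x = x) (hy : g y = y) (t : ℝ) : g (seg x y t) = seg x y t := by
  rw [map_seg hM hg h, hx, hy]

/-- The polygon through the first `k + 1` points of a chain, parametrised by `[0, k]`. -/
noncomputable def poly : ℕ → (ℕ → M) → ℝ → M
  | 0, x, _ => x 0
  | k + 1, x, t => if t ≤ k then poly k x t else seg (x k) (x (k + 1)) (t - k)

theorem poly_top (hM : UniqueMid M r) :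
    ∀ k (x : ℕ → M), (∀ i < k, dist (x i) (x (i + 1)) < r) → poly k x k = x k
  | 0, x, _ => rfl
  | k + 1, x, h => by
    rw [poly, if_neg (by push_cast; linarith), Nat.cast_succ, add_sub_cancel_left,
      seg_one hM (h k k.lt_succ_self)]

omit [CompactSpace M] in
theorem poly_zero : ∀ k (x : ℕ → M), poly k x 0 = x 0
  | 0, x => rfl
  | k + 1, x => by rw [poly, if_pos (Nat.cast_nonneg k), poly_zero k x]

theorem continuous_poly (hM : UniqueMid M r) {X : Type*} [TopologicalSpace X] :
    ∀ k {f : X → ℕ → M}, Continuous f → (∀ a, ∀ i < k, dist (f a i) (f a (i + 1)) < r) →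
      ∀ {t : X → ℝ}, Continuous t → Continuous fun a => poly k (f a) (t a)
  | 0, f, hf, _, t, _ => (continuous_apply 0).comp hf
  | k + 1, f, hf, h, t, ht => by
    refine continuous_if_le ht continuous_const
      ((continuous_poly hM k hf (fun a i hi => h a i (by omega)) ht).continuousOn)
      ((continuous_seg_comp hM ((continuous_apply k).comp hf) ((continuous_apply (k + 1)).comp hf)
        (ht.sub continuous_const) fun a => h a k k.lt_succ_self).continuousOn) fun a ha => ?_
    rw [ha, poly_top hM k _ (fun i hi => h a i (by omega))]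
    simp [seg_zero hM (h a k k.lt_succ_self)]

theorem dist_poly_le (hM : UniqueMid M r) :
    ∀ k (x : ℕ → M) (t : ℝ), (∀ i < k, dist (x i) (x (i + 1)) < r) →
      dist (x 0) (poly k x t) ≤ ∑ i ∈ Finset.range k, dist (x i) (x (i + 1))
  | 0, x, t, _ => by simp [poly]
  | k + 1, x, t, h => by
    rw [poly, Finset.sum_range_succ]
    split_ifs with ht
    · have := dist_poly_le hM k x t fun i hi => h i (by omega)
      linarith [dist_nonneg (x := x k) (y := x (k + 1))]
    · have h1 := dist_le_range_sum_dist x k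
      have h2 := dist_seg_clamp hM (h k k.lt_succ_self) (t - k)
      linarith [dist_triangle (x 0) (x k) (seg (x k) (x (k + 1)) (t - k))]

end Vale.Agent.P216
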