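import Vale.Agent.P216.SegCont
import Vale.Agent.P216.Chord

/-!
# Shortening chords of an isometric involution

If there is no chord orthogonal to the fixed set, every family of paths with both ends fixed can be
compressed into the fixed set.
-/

namespace Vale.Agent.P216

open Filter Topology Set Function

variable {M : Type*} [MetricSpace M]

/-- Clamping to the unit interval. -/
noncomputable def cl (t : ℝ) : ℝ := max 0 (min t 1)

theorem continuous_cl : Continuous cl := by unfold cl; fun_prop

theorem cl_mem (t : ℝ) : cl t ∈ Icc (0 : ℝ) 1 :=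
  ⟨le_max_left _ _, max_le zero_le_one (min_le_right _ _)⟩

theorem cl_of_mem {t : ℝ} (ht : t ∈ Icc (0 : ℝ) 1) : cl t = t := by
  rw [cl, min_eq_left ht.2, max_eq_right ht.1]

/-- The family `γ` of paths with ends fixed by `g` can be deformed, with ends fixed by `g`, to
paths inside the fixed set. -/
def Compressible (g : M → M) {P : Type*} [TopologicalSpace P] (γ : P × ℝ → M) : Prop :=
  ∃ Γ : P × ℝ × ℝ → M, Continuous Γ ∧ (∀ p, ∀ t ∈ Icc (0 : ℝ) 1, Γ (p, 0, t) = γ (p, t)) ∧
    ∀ p u t, (t = 0 ∨ t = 1 ∨ u = 1) → g (Γ (p, u, t)) = Γ (p, u, t)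

theorem Compressible.of_homotopy {g : M → M} {P : Type*} [TopologicalSpace P]
    {γ γ' : P × ℝ → M} (H : P × ℝ × ℝ → M) (hH : Continuous H)
    (h0 : ∀ p, ∀ t ∈ Icc (0 : ℝ) 1, H (p, 0, t) = γ (p, t))
    (h1 : ∀ p, ∀ t ∈ Icc (0 : ℝ) 1, H (p, 1, t) = γ' (p, t))
    (hend : ∀ p u t, (t = 0 ∨ t = 1) → g (H (p, u, t)) = H (p, u, t))
    (hc : Compressible g γ') : Compressible g γ := by
  obtain ⟨Γ, hΓ, hΓ0, hΓf⟩ := hc
  set F : P × ℝ × ℝ → M := fun q => if q.2.1 ≤ 1 / 2 then H (q.1, 2 * q.2.1, cl q.2.2)
    else Γ (q.1, 2 * q.2.1 - 1, cl q.2.2) with hF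
  have hcl : Continuous fun q : P × ℝ × ℝ => cl q.2.2 :=
    continuous_cl.comp (continuous_snd.comp continuous_snd)
  refine ⟨F, ?_, ?_, ?_⟩
  · refine continuous_if_le (by fun_prop) continuous_const
      (hH.comp (continuous_fst.prodMk ((by fun_prop : Continuous fun q : P × ℝ × ℝ =>
        2 * q.2.1).prodMk hcl))).continuousOn
      (hΓ.comp (continuous_fst.prodMk ((by fun_prop : Continuous fun q : P × ℝ × ℝ =>
        2 * q.2.1 - 1).prodMk hcl))).continuousOn fun q hq => ?_
    simp only [hq]
    norm_num
    rw [h1 _ _ (cl_mem _), hΓ0 _ _ (cl_mem _)]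
  · intro p t ht
    simp only [hF]
    norm_num
    rw [cl_of_mem ht, h0 _ _ ht]
  · intro p u t h
    simp only [hF]
    split_ifs with hu
    · rcases h with rfl | rfl | rfl
      · exact hend _ _ _ (Or.inl (by norm_num [cl]))
      · exact hend _ _ _ (Or.inr (by norm_num [cl]))
      · norm_num at hu
    · rcases h with rfl | rfl | rfl
      · exact hΓf _ _ _ (Or.inl (by norm_num [cl]))
      · exact hΓf _ _ _ (Or.inr (Or.inl (by norm_num [cl])))
      · exact hΓf _ _ _ (Or.inr (Or.inr (by norm_num)))

/-- Chains with `k` steps of length at most `η` and ends fixed by `g`. -/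
def chains (g : M → M) (k : ℕ) (η : ℝ) : Set (ℕ → M) :=
  {x | g (x 0) = x 0 ∧ g (x k) = x k ∧ ∀ i < k, dist (x i) (x (i + 1)) ≤ η}

/-- The midpoint of the `i`th step of a chain. -/
noncomputable def half (x : ℕ → M) (i : ℕ) : M := mid (x i) (x (i + 1))

/-- One shortening step. -/
noncomputable def shorten (g : M → M) (k : ℕ) (x : ℕ → M) (i : ℕ) : M :=
  if i = 0 then mid (half x 0) (g (half x 0))
  else if i < k then mid (half x (i - 1)) (half x i)
  else if i = k then mid (half x (k - 1)) (g (half x (k - 1)))
  else x i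

/-- Twice the bound for the squared half steps of the shortened chain. -/
noncomputable def weight (k : ℕ) (x : ℕ → M) (i : ℕ) : ℝ :=
  if i = 0 then dist (x 0) (x 1) ^ 2 / 2
  else if i < k then (dist (x (i - 1)) (x i) ^ 2 + dist (x i) (x (i + 1)) ^ 2) / 4
  else dist (x (k - 1)) (x k) ^ 2 / 2

theorem sum_weight {k : ℕ} (hk : 0 < k) (x : ℕ → M) :
    ∑ i ∈ Finset.range k, (weight k x i + weight k x (i + 1)) = energy k x := by
  set φ : ℕ → ℝ := fun i => if i = 0 ∨ k ≤ i then 0
    else (dist (x i) (x (i + 1)) ^ 2 - dist (x (i - 1)) (x i) ^ 2) / 4 with hφ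
  have e : ∀ i ∈ Finset.range k, weight k x i + weight k x (i + 1) =
      dist (x i) (x (i + 1)) ^ 2 + (φ (i + 1) - φ i) := by
    intro i hi
    rw [Finset.mem_range] at hi
    simp only [hφ, weight]
    rcases Nat.eq_zero_or_pos i with rfl | hi0
    · by_cases h1 : 1 < k
      · simp [h1, show ¬ k ≤ 1 by omega]
        ring
      · obtain rfl : k = 1 := by omega
        simp
    · by_cases h1 : i + 1 < k
      · simp [hi0.ne', hi, h1, show ¬ k ≤ i by omega, show ¬ k ≤ i + 1 by omega]
        ring
      · obtain rfl : k = i + 1 := by omega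
        simp [hi0.ne']
        ring
  rw [Finset.sum_congr rfl e, Finset.sum_add_distrib, Finset.sum_range_sub φ]
  simp [hφ, energy]

variable {r η : ℝ} {g : M → M} {k : ℕ} {x : ℕ → M}

theorem half_spec (hM : UniqueMid M r) (hη : η < r) (hx : x ∈ chains g k η) {i : ℕ} (hi : i < k) :
    dist (x i) (half x i) = dist (x i) (x (i + 1)) / 2 ∧
      dist (half x i) (x (i + 1)) = dist (x i) (x (i + 1)) / 2 :=
  isMid_mid hM ((hx.2.2 i hi).trans_lt hη)

theorem half_near (hM : UniqueMid M r) (hη : η < r) (hx : x ∈ chains g k η) {i : ℕ}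
    (hi : i + 1 < k) : dist (half x i) (half x (i + 1)) ≤
      (dist (x i) (x (i + 1)) + dist (x (i + 1)) (x (i + 2))) / 2 := by
  have a := (half_spec hM hη hx (i := i) (by omega)).2
  have b := (half_spec hM hη hx hi).1
  linarith [dist_triangle (half x i) (x (i + 1)) (half x (i + 1))]

theorem end_spec (hM : UniqueMid M r) (hg : Isometry g) (hgg : ∀ a, g (g a) = a) (hη : η < r)
    {p q : M} (hp : g p = p) (h : dist p q ≤ η / 2) :
    dist q (g q) ≤ 2 * dist p q ∧ g (mid q (g q)) = mid q (g q) ∧
      dist (mid q (g q)) q = dist q (g q) / 2 := by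
  have e : dist p (g q) = dist p q := by rw [← hg.dist_eq p q, hp]
  have h1 : dist q (g q) ≤ 2 * dist p q := by
    linarith [dist_triangle q p (g q), dist_comm p q]
  have hlt : dist q (g q) < r := by linarith
  refine ⟨h1, ?_, by rw [dist_comm]; exact (isMid_mid hM hlt).1⟩
  obtain ⟨m1, m2⟩ := isMid_mid hM hlt
  rw [map_mid hM hg hlt, hgg]
  exact mid_eq hM (by rwa [dist_comm]) ⟨by rw [dist_comm, m2, dist_comm], by rw [dist_comm, m1, dist_comm]⟩

variable (hM : UniqueMid M r) (hg : Isometry g) (hgg : ∀ a, g (g a) = a) (hr : 0 < r)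
  (hη : η < r) (hk : 0 < k)

include hM hg hgg hη hk in
theorem shorten_bounds (hx : x ∈ chains g k η) {i : ℕ} (hi : i ≤ k) :
    (i < k → 2 * dist (shorten g k x i) (half x i) ^ 2 ≤ weight k x i ∧
      dist (shorten g k x i) (half x i) ≤ η / 2) ∧
    (0 < i → 2 * dist (half x (i - 1)) (shorten g k x i) ^ 2 ≤ weight k x i ∧
      dist (half x (i - 1)) (shorten g k x i) ≤ η / 2) := by
  rcases Nat.eq_zero_or_pos i with rfl | hi0
  · refine ⟨fun _ => ?_, fun h => absurd h (lt_irrefl 0)⟩
    have hs := (half_spec hM hη hx hk).1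
    have hb := hx.2.2 0 hk
    obtain ⟨h1, -, h3⟩ := end_spec hM hg hgg hη (q := half x 0) hx.1 (by rw [hs]; linarith)
    rw [hs] at h1
    simp only [shorten, weight, if_true, h3]
    have := dist_nonneg (x := half x 0) (y := g (half x 0))
    constructor <;> nlinarith
  rcases lt_or_eq_of_le hi with hik | rfl
  · have hn := half_near hM hη hx (i := i - 1) (by omega)
    rw [show i - 1 + 1 = i by omega, show i - 1 + 2 = i + 1 by omega] at hn
    have hb1 := hx.2.2 (i - 1) (by omega)
    rw [show i - 1 + 1 = i by omega] at hb1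
    have hb2 := hx.2.2 i hik
    obtain ⟨m1, m2⟩ := isMid_mid hM (show dist (half x (i - 1)) (half x i) < r by linarith)
    simp only [shorten, weight, hi0.ne', hik, if_true, if_false, m1, m2]
    have := dist_nonneg (x := half x (i - 1)) (y := half x i)
    constructor <;> intro <;> constructor <;>
      nlinarith [sq_nonneg (dist (x (i - 1)) (x i) - dist (x i) (x (i + 1)))]
  · refine ⟨fun h => absurd h (lt_irrefl _), fun _ => ?_⟩
    have hs := (half_spec hM hη hx (i := i - 1) (by omega)).2
    have hb := hx.2.2 (i - 1) (by omega)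
    rw [show i - 1 + 1 = i by omega] at hs hb
    obtain ⟨h1, -, h3⟩ := end_spec hM hg hgg hη (q := half x (i - 1)) hx.2.1
      (by rw [dist_comm, hs]; linarith)
    rw [dist_comm (x i), hs] at h1
    simp only [shorten, weight, hi0.ne', lt_irrefl, if_true, if_false, dist_comm (half x (i - 1)),
      h3]
    rw [dist_comm (g (half x (i - 1)))] at *
    have := dist_nonneg (x := half x (i - 1)) (y := g (half x (i - 1)))
    constructor <;> nlinarith

include hM hg hgg hη hk in
theorem shorten_fixed (hx : x ∈ chains g k η) :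
    g (shorten g k x 0) = shorten g k x 0 ∧ g (shorten g k x k) = shorten g k x k := by
  have h0 := (half_spec hM hη hx hk).1
  have hb := hx.2.2 0 hk
  have h1 := (half_spec hM hη hx (i := k - 1) (by omega)).2
  have hb1 := hx.2.2 (k - 1) (by omega)
  rw [show k - 1 + 1 = k by omega] at h1 hb1
  refine ⟨?_, ?_⟩
  · simp only [shorten, if_true]
    exact (end_spec hM hg hgg hη hx.1 (by rw [h0]; linarith)).2.1
  · simp only [shorten, hk.ne', lt_irrefl, if_true, if_false]
    exact (end_spec hM hg hgg hη hx.2.1 (by rw [dist_comm, h1]; linarith)).2.1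

include hM hg hgg hη hk in
theorem shorten_mem (hx : x ∈ chains g k η) : shorten g k x ∈ chains g k η := by
  refine ⟨(shorten_fixed hM hg hgg hη hk hx).1, (shorten_fixed hM hg hgg hη hk hx).2, ?_⟩
  intro i hi
  have a := ((shorten_bounds hM hg hgg hη hk hx hi.le).1 hi).2
  have b := ((shorten_bounds hM hg hgg hη hk hx (i := i + 1) hi).2 i.succ_pos).2
  rw [Nat.add_sub_cancel] at b
  linarith [dist_triangle (shorten g k x i) (half x i) (shorten g k x (i + 1))]

include hM hg hgg hη hk in
theorem dist_shorten (hx : x ∈ chains g k η) (i : ℕ) : dist (x i) (shorten g k x i) ≤ η := by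
  have hη0 : 0 ≤ η := dist_nonneg.trans (hx.2.2 0 hk)
  rcases le_or_gt i k with hi | hi
  · rcases lt_or_eq_of_le hi with hi' | rfl
    · have a := ((shorten_bounds hM hg hgg hη hk hx hi).1 hi').2
      have b := (half_spec hM hη hx hi').1
      have := hx.2.2 i hi'
      linarith [dist_triangle (x i) (half x i) (shorten g k x i),
        dist_comm (shorten g k x i) (half x i)]
    · have a := ((shorten_bounds hM hg hgg hη hk hx le_rfl).2 hk).2
      have b := (half_spec hM hη hx (i := i - 1) (by omega)).2
      have := hx.2.2 (i - 1) (by omega)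
      rw [show i - 1 + 1 = i by omega] at b this
      linarith [dist_triangle (x i) (half x (i - 1)) (shorten g i x i),
        dist_comm (x i) (half x (i - 1))]
  · simp [shorten, show i ≠ 0 by omega, show ¬ i < k by omega, hi.ne', hη0]

include hM hg hgg hη hk in
theorem energy_shorten (hx : x ∈ chains g k η) :
    energy k (shorten g k x) ≤ energy k x ∧
      (energy k x ≤ energy k (shorten g k x) → ∀ i < k,
        2 * dist (shorten g k x i) (half x i) ^ 2 = weight k x i ∧
        2 * dist (half x i) (shorten g k x (i + 1)) ^ 2 = weight k x (i + 1)) := by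
  have hle : ∀ i ∈ Finset.range k,
      dist (shorten g k x i) (shorten g k x (i + 1)) ^ 2 ≤
        2 * dist (shorten g k x i) (half x i) ^ 2 +
          2 * dist (half x i) (shorten g k x (i + 1)) ^ 2 := by
    intro i _
    have h := pow_le_pow_left₀ dist_nonneg
      (dist_triangle (shorten g k x i) (half x i) (shorten g k x (i + 1))) 2
    nlinarith [sq_nonneg (dist (shorten g k x i) (half x i) -
      dist (half x i) (shorten g k x (i + 1)))]
  have hle2 : ∀ i ∈ Finset.range k,
      2 * dist (shorten g k x i) (half x i) ^ 2 +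
          2 * dist (half x i) (shorten g k x (i + 1)) ^ 2 ≤
        weight k x i + weight k x (i + 1) := by
    intro i hi
    rw [Finset.mem_range] at hi
    have a := ((shorten_bounds hM hg hgg hη hk hx hi.le).1 hi).1
    have b := ((shorten_bounds hM hg hgg hη hk hx (i := i + 1) hi).2 i.succ_pos).1
    rw [Nat.add_sub_cancel] at b
    linarith
  have h1 := Finset.sum_le_sum hle
  have h2 := Finset.sum_le_sum hle2
  rw [sum_weight hk] at h2
  refine ⟨h1.trans h2, fun heq i hi => ?_⟩
  have h3 : ∀ j ∈ Finset.range k, 2 * dist (shorten g k x j) (half x j) ^ 2 +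
      2 * dist (half x j) (shorten g k x (j + 1)) ^ 2 = weight k x j + weight k x (j + 1) := by
    refine (Finset.sum_eq_sum_iff_of_le hle2).1 ?_
    rw [sum_weight hk]
    exact le_antisymm h2 (heq.trans h1)
  have h4 := h3 i (Finset.mem_range.2 hi)
  have a := ((shorten_bounds hM hg hgg hη hk hx hi.le).1 hi).1
  have b := ((shorten_bounds hM hg hgg hη hk hx (i := i + 1) hi).2 i.succ_pos).1
  rw [Nat.add_sub_cancel] at b
  constructor <;> linarith

include hM hg hgg hη hk in
/-- A chain of positive energy which cannot be shortened is an orthogonal chord. -/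
theorem exists_isChord (hη' : 2 * η < r) (hx : x ∈ chains g k η) (hpos : 0 < energy k x)
    (heq : energy k x ≤ energy k (shorten g k x)) :
    ∃ δ w, IsChord g {a | g a = a} {a | g a = a} r δ (2 * k) w := by
  have hc := (energy_shorten hM hg hgg hη hk hx).2 heq
  set s := dist (x 0) (x 1) with hs
  -- equal steps with straight corners
  have hint : ∀ i, i + 1 < k → dist (x (i + 1)) (x (i + 2)) = dist (x i) (x (i + 1)) ∧
      dist (half x i) (half x (i + 1)) = dist (x i) (x (i + 1)) := by
    intro i hi
    have hn := half_near hM hη hx hi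
    have hb1 := hx.2.2 i (by omega)
    have hb2 : dist (x (i + 1)) (x (i + 2)) ≤ η := hx.2.2 (i + 1) hi
    have h := (hc (i + 1) hi).1
    obtain ⟨-, m2⟩ := isMid_mid hM (show dist (half x i) (half x (i + 1)) < r by linarith)
    simp only [shorten, weight, show i + 1 ≠ 0 by omega, hi, if_true, if_false,
      Nat.add_sub_cancel, m2, show i + 1 + 1 = i + 2 from rfl] at h
    set a := dist (x i) (x (i + 1))
    set b := dist (x (i + 1)) (x (i + 2))
    set d := dist (half x i) (half x (i + 1))
    have hd : 0 ≤ d := dist_nonneg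
    have hsq : d ^ 2 ≤ ((a + b) / 2) ^ 2 := pow_le_pow_left₀ hd hn 2
    have hab : b = a := by nlinarith [sq_nonneg (a - b)]
    have ha : 0 ≤ a := dist_nonneg
    exact ⟨hab, by nlinarith [sq_nonneg (a - d)]⟩
  have hstep : ∀ i < k, dist (x i) (x (i + 1)) = s := by
    intro i hi
    induction i with
    | zero => rfl
    | succ i ih => rw [(hint i hi).1, ih (by omega)]
  have hs0 : 0 < s := by
    refine lt_of_le_of_ne dist_nonneg fun h0 => ?_
    have e : energy k x = 0 := Finset.sum_eq_zero fun i hi => by
      rw [hstep i (Finset.mem_range.1 hi), ← h0]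
      ring
    linarith
  have hsη : s ≤ η := hx.2.2 0 hk
  have hleft : dist (half x 0) (g (half x 0)) = s := by
    have h := (hc 0 hk).1
    obtain ⟨-, -, h3⟩ := end_spec hM hg hgg hη (q := half x 0) hx.1
      (by rw [(half_spec hM hη hx hk).1]; linarith)
    simp only [shorten, weight, if_true, h3, ← hs] at h
    exact (pow_left_inj₀ dist_nonneg hs0.le two_ne_zero).1 (by linarith)
  have hright : dist (half x (k - 1)) (g (half x (k - 1))) = s := by
    have h := (hc (k - 1) (by omega)).2
    have h2 := (half_spec hM hη hx (i := k - 1) (by omega)).2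
    have h4 := hstep (k - 1) (by omega)
    rw [show k - 1 + 1 = k by omega] at h h2 h4
    obtain ⟨-, -, h3⟩ := end_spec hM hg hgg hη (q := half x (k - 1)) hx.2.1
      (by rw [dist_comm, h2, h4]; linarith)
    rw [dist_comm (half x (k - 1))] at h
    simp only [shorten, weight, hk.ne', lt_irrefl, if_true, if_false, h3, h4] at h
    exact (pow_left_inj₀ dist_nonneg hs0.le two_ne_zero).1 (by linarith)
  refine ⟨s / 2, fun j => if j % 2 = 0 then x (j / 2) else half x (j / 2), by omega,
    by positivity, by linarith, ?_, ?_, ?_, ?_, ?_, ?_⟩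
  · simpa using hx.1
  · simpa [show 2 * k / 2 = k by omega] using hx.2.1
  · intro j hj
    obtain ⟨i, rfl | rfl⟩ := Nat.even_or_odd' j
    · have := (half_spec hM hη hx (i := i) (by omega)).1
      simp [show (2 * i + 1) / 2 = i by omega, this, hstep i (by omega)]
    · have := (half_spec hM hη hx (i := i) (by omega)).2
      simp [show (2 * i + 1) / 2 = i by omega, show (2 * i + 1 + 1) % 2 = 0 by omega,
        show (2 * i + 1 + 1) / 2 = i + 1 by omega, this, hstep i (by omega)]
  · intro j hj
    obtain ⟨i, rfl | rfl⟩ := Nat.even_or_odd' j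
    · simp [show (2 * i + 2) / 2 = i + 1 by omega, hstep i (by omega)]
      ring
    · simp [show (2 * i + 1) / 2 = i by omega, show (2 * i + 1 + 2) % 2 = 1 by omega,
        show (2 * i + 1 + 2) / 2 = i + 1 by omega, (hint i (by omega)).2, hstep i (by omega)]
      ring
  · simp [hleft]
    ring
  · simp [show (2 * k - 1) % 2 = 1 by omega, show (2 * k - 1) / 2 = k - 1 by omega, hright]
    ring

variable [CompactSpace M]

omit [CompactSpace M] in
theorem isClosed_chains (hg : Isometry g) : IsClosed (chains g k η) := by
  simp only [chains, ofPred_and, ofPred_forall]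
  refine (isClosed_eq (hg.continuous.comp (continuous_apply 0)) (continuous_apply 0)).inter
    ((isClosed_eq (hg.continuous.comp (continuous_apply k)) (continuous_apply k)).inter ?_)
  exact isClosed_iInter fun i => isClosed_iInter fun _ =>
    isClosed_le ((continuous_apply i).dist (continuous_apply (i + 1))) continuous_const

include hM hg hgg hη hk in
theorem continuous_shorten {P : Type*} [TopologicalSpace P] {f : P → ℕ → M} (hf : Continuous f)
    (hfm : ∀ p, f p ∈ chains g k η) : Continuous fun p => shorten g k (f p) := by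
  have hmid : ∀ {u v : P → M}, Continuous u → Continuous v → (∀ p, dist (u p) (v p) < r) →
      Continuous fun p => mid (u p) (v p) := fun hu hv h => continuous_iff_continuousAt.2 fun p =>
    ContinuousAt.comp (x := p) (g := fun q : M × M => mid q.1 q.2)
      (continuousAt_mid hM (h p)) (hu.prodMk hv).continuousAt
  have hhalf : ∀ i < k, Continuous fun p => half (f p) i := fun i hi =>
    hmid ((continuous_apply i).comp hf) ((continuous_apply (i + 1)).comp hf)
      fun p => ((hfm p).2.2 i hi).trans_lt hη
  refine continuous_pi fun i => ?_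
  simp only [shorten]
  split_ifs with h0 h1 h2
  · refine hmid (hhalf 0 hk) (hg.continuous.comp (hhalf 0 hk)) fun p => ?_
    have hs := (half_spec hM hη (hfm p) hk).1
    have := (hfm p).2.2 0 hk
    have := (end_spec hM hg hgg hη (q := half (f p) 0) (hfm p).1 (by rw [hs]; linarith)).1
    linarith
  · refine hmid (hhalf (i - 1) (by omega)) (hhalf i h1) fun p => ?_
    have := half_near hM hη (hfm p) (i := i - 1) (by omega)
    rw [show i - 1 + 1 = i by omega, show i - 1 + 2 = i + 1 by omega] at this
    have h3 := (hfm p).2.2 (i - 1) (by omega)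
    rw [show i - 1 + 1 = i by omega] at h3
    have := (hfm p).2.2 i h1
    linarith
  · refine hmid (hhalf (k - 1) (by omega)) (hg.continuous.comp (hhalf (k - 1) (by omega)))
      fun p => ?_
    have hs := (half_spec hM hη (hfm p) (i := k - 1) (by omega)).2
    have hb := (hfm p).2.2 (k - 1) (by omega)
    rw [show k - 1 + 1 = k by omega] at hs hb
    have := (end_spec hM hg hgg hη (q := half (f p) (k - 1)) (hfm p).2.1
      (by rw [dist_comm, hs]; linarith)).1
    rw [dist_comm (f p k), hs] at this
    linarith
  · exact (continuous_apply i).comp hf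

include hM hg hgg hη hk in
/-- Without orthogonal chords all chains become short after a number of steps. -/
theorem exists_short (hη' : 2 * η < r)
    (hno : ∀ δ w, ¬ IsChord g {a | g a = a} {a | g a = a} r δ (2 * k) w) {c : ℝ} (hc : 0 < c) :
    ∃ m : ℕ, ∀ x ∈ chains g k η, energy k ((shorten g k)^[m] x) < c := by
  have hcl := isClosed_chains (k := k) (η := η) hg
  have hEc : Continuous (energy (M := M) k) := continuous_finsetSum _ fun i _ =>
    ((continuous_apply i).dist (continuous_apply (i + 1))).pow 2
  set S : Set (ℕ → M) := chains g k η ∩ {x | c ≤ energy k x}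
  have hS : IsCompact S := (hcl.inter (isClosed_le continuous_const hEc)).isCompact
  obtain ⟨d, hd, hdec⟩ : ∃ d > 0, ∀ x ∈ S, energy k (shorten g k x) ≤ energy k x - d := by
    rcases S.eq_empty_or_nonempty with he | hne
    · exact ⟨1, one_pos, by simp [he]⟩
    have hcont : ContinuousOn (fun x => energy k x - energy k (shorten g k x)) S := by
      rw [continuousOn_iff_continuous_domRestrict]
      exact (hEc.comp continuous_subtype_val).sub
        (hEc.comp (continuous_shorten hM hg hgg hη hk continuous_subtype_val fun p => p.2.1))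
    obtain ⟨x₀, hx₀, hmin⟩ := hS.exists_isMinOn hne hcont
    refine ⟨energy k x₀ - energy k (shorten g k x₀), ?_, fun x hx => ?_⟩
    · by_contra hle
      obtain ⟨δ, w, hw⟩ := exists_isChord hM hg hgg hη hk hη' hx₀.1 (hc.trans_le hx₀.2)
        (by linarith)
      exact hno δ w hw
    · linarith [isMinOn_iff.1 hmin x hx]
  obtain ⟨m, hm⟩ := exists_nat_gt ((k * η ^ 2) / d)
  refine ⟨m, fun x hx => ?_⟩
  have key : ∀ j, (shorten g k)^[j] x ∈ chains g k η ∧
      (energy k ((shorten g k)^[j] x) < c ∨
        energy k ((shorten g k)^[j] x) ≤ energy k x - j * d) := by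
    intro j
    induction j with
    | zero => exact ⟨hx, Or.inr (by simp)⟩
    | succ j ih =>
      rw [iterate_succ_apply']
      refine ⟨shorten_mem hM hg hgg hη hk ih.1, ?_⟩
      have h1 := (energy_shorten hM hg hgg hη hk ih.1).1
      rcases lt_or_ge (energy k ((shorten g k)^[j] x)) c with h | h
      · exact Or.inl (h1.trans_lt h)
      · refine Or.inr ?_
        have h2 := hdec _ ⟨ih.1, h⟩
        have h3 := ih.2.resolve_left (not_lt.2 h)
        push_cast
        linarith
  refine ((key m).2).elim id fun h => ?_
  have hE : energy k x ≤ k * η ^ 2 := by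
    refine (Finset.sum_le_card_nsmul _ _ (η ^ 2) fun i hi =>
      pow_le_pow_left₀ dist_nonneg (hx.2.2 i (Finset.mem_range.1 hi)) 2).trans ?_
    simp
  rw [div_lt_iff₀ hd] at hm
  linarith

/-- The path family of a family of chains. -/
noncomputable def chainPath (k : ℕ) {P : Type*} (f : P → ℕ → M) (q : P × ℝ) : M :=
  poly k (f q.1) (cl q.2 * k)

include hM hg hgg hr hη hk in
theorem compressible_chainPath (hη' : 4 * η < r)
    (hno : ∀ δ w, ¬ IsChord g {a | g a = a} {a | g a = a} r δ (2 * k) w)
    {P : Type*} [TopologicalSpace P] {f : P → ℕ → M} (hf : Continuous f)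
    (hfm : ∀ p, f p ∈ chains g k η) : Compressible g (chainPath k f) := by
  set c : ℝ := (r / (4 * k)) ^ 2
  obtain ⟨m, hm⟩ := exists_short hM hg hgg hη hk (by linarith) hno
    (show 0 < c by positivity)
  have hsm : ∀ (m : ℕ) (f : P → ℕ → M), Continuous f → (∀ p, f p ∈ chains g k η) →
      (∀ p, energy k ((shorten g k)^[m] (f p)) < c) → Compressible g (chainPath k f) := by
    intro m
    induction m with
    | zero =>
      intro f hf hfm hE
      have hcont : Continuous fun q : P × ℝ × ℝ => poly k (f q.1) (cl q.2.2 * k) :=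
        continuous_poly hM k (hf.comp continuous_fst)
          (fun q i hi => ((hfm q.1).2.2 i hi).trans_lt hη)
          (by have := continuous_cl; fun_prop)
      have hnear : ∀ (p : P) (t : ℝ), dist (poly k (f p) (cl t * k)) (f p 0) < r := by
        intro p t
        rw [dist_comm]
        refine lt_of_le_of_lt
          (dist_poly_le hM k _ _ fun i hi => ((hfm p).2.2 i hi).trans_lt hη) ?_
        have hb : ∀ i ∈ Finset.range k, dist (f p i) (f p (i + 1)) ≤ r / (4 * k) := by
          intro i hi
          refine le_of_pow_le_pow_left₀ two_ne_zero (by positivity) (le_trans ?_ (hE p).le)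
          exact Finset.single_le_sum (f := fun i => dist (f p i) (f p (i + 1)) ^ 2)
            (fun j _ => sq_nonneg _) hi
        refine (Finset.sum_le_card_nsmul _ _ _ hb).trans_lt ?_
        have hk' : (0 : ℝ) < k := by exact_mod_cast hk
        rw [Finset.card_range, nsmul_eq_mul]
        rw [show (k : ℝ) * (r / (4 * k)) = r / 4 by field_simp]
        linarith
      refine ⟨fun q => seg (poly k (f q.1) (cl q.2.2 * k)) (f q.1 0) q.2.1,
        continuous_seg_comp hM hcont ((continuous_apply 0).comp (hf.comp continuous_fst))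
          (continuous_fst.comp continuous_snd) (fun q => hnear q.1 q.2.2), ?_, ?_⟩
      · intro p t ht
        exact seg_zero hM (hnear p t)
      · intro p u t h
        rcases h with rfl | rfl | rfl
        · simp [cl, poly_zero, seg_self hM hr, (hfm p).1]
        · refine seg_fixed hM hg (hnear p 1) ?_ (hfm p).1 u
          simp [cl, poly_top hM k _ (fun i hi => ((hfm p).2.2 i hi).trans_lt hη), (hfm p).2.1]
        · show g (seg _ _ _) = seg _ _ _
          rw [seg_one hM (hnear p t), (hfm p).1]
    | succ m ih =>
      intro f hf hfm hE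
      have hf' := continuous_shorten hM hg hgg hη hk hf hfm
      have hfm' : ∀ p, shorten g k (f p) ∈ chains g k η := fun p =>
        shorten_mem hM hg hgg hη hk (hfm p)
      set F : P × ℝ → ℕ → M := fun q i => seg (f q.1 i) (shorten g k (f q.1) i) q.2
      have hd : ∀ p i, dist (f p i) (shorten g k (f p) i) < r := fun p i =>
        (dist_shorten hM hg hgg hη hk (hfm p) i).trans_lt hη
      have hFc : Continuous F := continuous_pi fun i =>
        continuous_seg_comp hM ((continuous_apply i).comp (hf.comp continuous_fst))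
          ((continuous_apply i).comp (hf'.comp continuous_fst)) continuous_snd fun q => hd q.1 i
      have hFd : ∀ q, ∀ i < k, dist (F q i) (F q (i + 1)) < r := by
        intro q i hi
        have a := dist_seg_clamp hM (hd q.1 i) q.2
        have b := dist_seg_clamp hM (hd q.1 (i + 1)) q.2
        have := dist_shorten hM hg hgg hη hk (hfm q.1) i
        have := dist_shorten hM hg hgg hη hk (hfm q.1) (i + 1)
        have := (hfm q.1).2.2 i hi
        linarith [dist_triangle4 (F q i) (f q.1 i) (f q.1 (i + 1)) (F q (i + 1)),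
          dist_comm (F q i) (f q.1 i)]
      refine Compressible.of_homotopy (γ' := chainPath k fun p => shorten g k (f p))
        (fun q => poly k (F (q.1, q.2.1)) (cl q.2.2 * k)) ?_ ?_ ?_ ?_
        (ih _ hf' hfm' fun p => by simpa [iterate_succ_apply] using hE p)
      · exact continuous_poly hM k
          (hFc.comp (continuous_fst.prodMk (continuous_fst.comp continuous_snd)))
          (fun q i hi => hFd _ i hi) (by have := continuous_cl; fun_prop)
      · intro p t ht
        have e : F (p, 0) = f p := funext fun i => seg_zero hM (hd p i)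
        simp only [chainPath, e]
      · intro p t ht
        have e : F (p, 1) = shorten g k (f p) := funext fun i => seg_one hM (hd p i)
        simp only [chainPath, e]
      · intro p u t h
        rcases h with rfl | rfl
        · simp only [cl_of_mem (left_mem_Icc.2 zero_le_one), zero_mul, poly_zero]
          exact seg_fixed hM hg (hd p 0) (hfm p).1 (hfm' p).1 u
        · simp only [cl_of_mem (right_mem_Icc.2 zero_le_one), one_mul,
            poly_top hM k _ (hFd (p, u))]
          exact seg_fixed hM hg (hd p k) (hfm p).2.1 (hfm' p).2.1 u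
  exact hsm m f hf hfm fun p => hm _ (hfm p)

end Vale.Agent.P216
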